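import Crest.Agent.R324.Basic

/-! The group algebra `ℂ[G]` acting on arrays `G → V` by convolution; frames. -/

set_option autoImplicit false

namespace Crest.Agent.R324

open Finset

variable {V : Type} [AddCommGroup V] [Module ℂ V]
variable {G : Type} [AddCommGroup G]

/-- The complex group algebra. -/
abbrev GA (G : Type) [AddCommGroup G] := AddMonoidAlgebra ℂ G

/-- Translation of arrays. -/
def shiftHom (V : Type) [AddCommGroup V] [Module ℂ V] (G : Type) [AddCommGroup G] :
    Multiplicative G →* Module.End ℂ (G → V) where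
  toFun w :=
    { toFun := fun a g => a (g + w.toAdd)
      map_add' := fun _ _ => rfl
      map_smul' := fun _ _ => rfl }
  map_one' := by ext a g; simp
  map_mul' w w' := by ext a g; simp [add_assoc]

/-- The action of the group algebra on arrays. -/
noncomputable def act (V : Type) [AddCommGroup V] [Module ℂ V] (G : Type) [AddCommGroup G] :
    GA G →ₐ[ℂ] Module.End ℂ (G → V) :=
  AddMonoidAlgebra.lift ℂ _ G (shiftHom V G)

theorem act_single (w : G) (c : ℂ) (a : G → V) (g : G) :
    act V G (AddMonoidAlgebra.single w c) a g = c • a (g + w) := by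
  simp [act, shiftHom]

theorem act_mul (u v : GA G) (a : G → V) : act V G (u * v) a = act V G u (act V G v a) := by
  rw [map_mul]; rfl

/-- `(1 + i) / 2` -/
noncomputable def al : ℂ := (1 + Complex.I) / 2
/-- `(1 - i) / 2` -/
noncomputable def be : ℂ := (1 - Complex.I) / 2

theorem al_add_be : al + be = 1 := by simp only [al, be]; ring

/-- translation element -/
noncomputable def tau (w : G) : GA G := AddMonoidAlgebra.single w 1

/-- the square root of the translation by `w` -/
noncomputable def gam (w : G) : GA G :=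
  AddMonoidAlgebra.single 0 al + AddMonoidAlgebra.single w be

theorem tau_add (w w' : G) : tau (w + w') = tau w * tau w' := by
  simp [tau, AddMonoidAlgebra.single_mul_single]

theorem tau_zero : tau (0 : G) = 1 := rfl

theorem act_tau (w : G) (a : G → V) (g : G) : act V G (tau w) a g = a (g + w) := by
  simp [tau, act_single]

theorem act_gam (w : G) (a : G → V) (g : G) :
    act V G (gam w) a g = al • a g + be • a (g + w) := by
  simp [gam, act_single]

theorem gam_zero : gam (0 : G) = 1 := by
  rw [gam, ← AddMonoidAlgebra.single_add, al_add_be]; rfl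

theorem gam_eq (w : G) : gam w = (1 / 2 : ℂ) •
    ((1 + algebraMap ℂ (GA G) Complex.I) + (1 - algebraMap ℂ (GA G) Complex.I) * tau w) := by
  have h1 : (AddMonoidAlgebra.single 0 al : GA G) = algebraMap ℂ (GA G) al := rfl
  have h2 : (AddMonoidAlgebra.single w be : GA G) = algebraMap ℂ (GA G) be * tau w := by
    have : algebraMap ℂ (GA G) be = AddMonoidAlgebra.single 0 be := rfl
    rw [this, tau, AddMonoidAlgebra.single_mul_single]; simp
  rw [gam, h1, h2, Algebra.smul_def]
  have h3 : al = 1 / 2 * (1 + Complex.I) := by simp only [al]; ring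
  have h4 : be = 1 / 2 * (1 - Complex.I) := by simp only [be]; ring
  rw [h3, h4]
  simp only [map_mul, map_add, map_sub, map_one]
  ring

theorem R_gam [Fintype G] (w : G) (a : G → V) :
    R (Set.range a) (3 * Fintype.card G) (Set.range (act V G (gam w) a)) := by
  rw [mul_comm]
  refine R.range fun g => ?_
  rw [act_gam]
  exact R.comb2 _ _ ⟨g, rfl⟩ ⟨g + w, rfl⟩

theorem R_prod_gam [Fintype G] {ι : Type} (s : Finset ι) (v : ι → G) (a : G → V) :
    R (Set.range a) (3 * s.card * Fintype.card G) (Set.range (act V G (∏ i ∈ s, gam (v i)) a)) := by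
  classical
  induction s using Finset.induction_on with
  | empty => simpa using R.refl (Set.range a)
  | insert i s hi ih =>
    rw [Finset.prod_insert hi, act_mul, Finset.card_insert_of_notMem hi]
    refine (ih.trans (R_gam (v i) _)).mono_cost (le_of_eq ?_)
    push_cast; ring

section map
variable {H : Type} [AddCommGroup H]

/-- push-forward of the group algebra -/
noncomputable def push (φ : H →+ G) : GA H →ₐ[ℂ] GA G :=
  AddMonoidAlgebra.mapDomainAlgHom ℂ ℂ φ

theorem push_single (φ : H →+ G) (w : H) (c : ℂ) :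
    push φ (AddMonoidAlgebra.single w c) = AddMonoidAlgebra.single (φ w) c := by
  simp [push]

theorem push_gam (φ : H →+ G) (w : H) : push φ (gam w) = gam (φ w) := by
  simp [gam, push_single]

theorem act_push (φ : H →+ G) (u : GA H) (a : G → V) (g : G) (y : H) :
    act V G (push φ u) a (g + φ y) = act V H u (fun y' => a (g + φ y')) y := by
  induction u using AddMonoidAlgebra.induction_linear with
  | zero => simp
  | add u v hu hv => simp only [map_add, LinearMap.add_apply, Pi.add_apply, hu, hv]
  | single w c => rw [push_single, act_single, act_single, map_add, add_assoc]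

end map

section two
variable [Module (ZMod 2) G]

theorem add_self_two (w : G) : w + w = 0 := by
  rw [← two_smul (ZMod 2) w]
  have : (2 : ZMod 2) = 0 := rfl
  rw [this, zero_smul]

theorem tau_sq (w : G) : tau w ^ 2 = 1 := by
  rw [pow_two, ← tau_add, add_self_two, tau_zero]

theorem gam_mul_self (w : G) : gam w * gam w = tau w := by
  rw [gam_eq]
  have hi : algebraMap ℂ (GA G) Complex.I ^ 2 = -1 := by
    rw [← map_pow, Complex.I_sq, map_neg, map_one]
  have ht := tau_sq w
  set i := algebraMap ℂ (GA G) Complex.I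
  set T := tau w
  rw [smul_mul_smul_comm]
  have : (1 + i + (1 - i) * T) * (1 + i + (1 - i) * T) = (4 : ℂ) • T := by
    rw [Algebra.smul_def, map_ofNat]
    linear_combination (2 - 2 * T) * hi + (1 - i) ^ 2 * ht
  rw [this, smul_smul]
  norm_num

theorem ring_rel4 {K : Type} [CommRing K] (i A B D E : K) (hi : i ^ 2 = -1) (hA : A ^ 2 = 1)
    (hB : B ^ 2 = 1) (hD : D ^ 2 = 1) (hE : E ^ 2 = 1) :
    (1 + i + (1 - i) * (A * B * D)) * (1 + i + (1 - i) * (A * B * E)) *
      (1 + i + (1 - i) * (A * D * E)) * (1 + i + (1 - i) * (B * D * E)) =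
    A * B * D * E * ((1 + i + (1 - i) * A) * (1 + i + (1 - i) * B) *
      (1 + i + (1 - i) * D) * (1 + i + (1 - i) * E)) := by
  grind

theorem gam_rel4 (a b d e : G) :
    gam (a + b + d) * gam (a + b + e) * gam (a + d + e) * gam (b + d + e) =
      tau (a + b + d + e) * (gam a * gam b * gam d * gam e) := by
  have hi : algebraMap ℂ (GA G) Complex.I ^ 2 = -1 := by
    rw [← map_pow, Complex.I_sq, map_neg, map_one]
  simp only [gam_eq, tau_add, smul_mul_assoc, mul_smul_comm]
  rw [ring_rel4 _ _ _ _ _ hi (tau_sq a) (tau_sq b) (tau_sq d) (tau_sq e)]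

end two

/-- Equality up to a translation. -/
def trCon (G : Type) [AddCommGroup G] : Con (GA G) where
  r u v := ∃ w : G, u = tau w * v
  iseqv :=
    { refl := fun u => ⟨0, by rw [tau_zero, one_mul]⟩
      symm := by
        rintro u v ⟨w, rfl⟩
        exact ⟨-w, by rw [← mul_assoc, ← tau_add, neg_add_cancel, tau_zero, one_mul]⟩
      trans := by
        rintro u v t ⟨w, rfl⟩ ⟨w', rfl⟩
        exact ⟨w + w', by rw [tau_add, mul_assoc]⟩ }
  mul' := by
    rintro u v u' v' ⟨w, rfl⟩ ⟨w', rfl⟩
    exact ⟨w + w', by rw [tau_add]; ring⟩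

/-- Frames: the group algebra modulo translations. -/
abbrev Frame (G : Type) [AddCommGroup G] := (trCon G).Quotient

/-- The frame of an element. -/
noncomputable def fr : GA G →* Frame G := (trCon G).mk'

theorem fr_eq {u v : GA G} : fr u = fr v ↔ ∃ w : G, u = tau w * v := (trCon G).eq

theorem fr_surj (q : Frame G) : ∃ u, fr u = q := (trCon G).mk'_surjective q

/-- The entries of the array `a` in the frame `q`. -/
def ent (q : Frame G) (a : G → V) : Set V := {v | ∃ u : GA G, fr u = q ∧ ∃ g, act V G u a g = v}

theorem ent_fr (u : GA G) (a : G → V) : ent (fr u) a = Set.range (act V G u a) := by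
  ext v
  constructor
  · rintro ⟨u', hu', g, rfl⟩
    obtain ⟨w, rfl⟩ := fr_eq.1 hu'
    exact ⟨g + w, by rw [act_mul, act_tau]⟩
  · rintro ⟨g, rfl⟩
    exact ⟨u, rfl, g, rfl⟩

theorem ent_one (a : G → V) : ent (1 : Frame G) a = Set.range a := by
  rw [← map_one fr, ent_fr]; simp

theorem ent_comb [Fintype G] {J : Type} (s : Finset J) (co : J → ℂ) (a : J → G → V) (q : Frame G)
    (S : Set V) (h : ∀ j ∈ s, ent q (a j) ⊆ S) :
    R S (2 * s.card * Fintype.card G) (ent q (∑ j ∈ s, co j • a j)) := by
  obtain ⟨u, rfl⟩ := fr_surj q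
  rw [ent_fr, mul_comm]
  refine R.range fun g => ?_
  have : act V G u (∑ j ∈ s, co j • a j) g = ∑ j ∈ s, co j • act V G u (a j) g := by
    simp [map_sum, Finset.sum_apply]
  rw [this]
  refine R.sum s co _ fun j hj => h j hj ?_
  rw [ent_fr]
  exact ⟨g, rfl⟩

theorem fr_gam_sq [Module (ZMod 2) G] (w : G) : fr (gam w) * fr (gam w) = 1 := by
  rw [← map_mul, gam_mul_self, ← map_one fr]
  exact fr_eq.2 ⟨w, by rw [mul_one]⟩

theorem fr_gam_rel4 [Module (ZMod 2) G] (a b d e : G) :
    fr (gam a) * fr (gam b) * fr (gam d) * fr (gam e) =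
      fr (gam (a + b + d)) * fr (gam (a + b + e)) * fr (gam (a + d + e)) * fr (gam (b + d + e)) := by
  simp only [← map_mul]
  exact (fr_eq.2 ⟨_, gam_rel4 a b d e⟩).symm

end Crest.Agent.R324
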