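import Mathlib

/-! A product of small pairwise coprime factors within a constant factor of `n`. -/

set_option autoImplicit false

namespace Crest.Agent.R324

open Finset

theorem sq_succ_le_two_pow (b : ℕ) (hb : 5 ≤ b) : b ^ 2 + 1 ≤ 2 ^ b := by
  induction b, hb using Nat.le_induction with
  | base => norm_num
  | succ b hb ih => rw [pow_succ 2]; nlinarith

theorem lt_prod_primesLE (m : ℕ) :
    m < ∏ p ∈ Nat.primesLE ((Nat.log 2 m + 5) ^ 2), p := by
  by_contra h
  push Not at h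
  set a := Nat.log 2 m with ha
  set t := (a + 5) ^ 2 with ht
  have h1 : 2 ^ (Nat.primesLE t).card ≤ ∏ p ∈ Nat.primesLE t, p :=
    Finset.pow_card_le_prod _ _ _ fun p hp => Nat.two_le_of_mem_primesLE hp
  have h2 : (Nat.primesLE t).card ≤ a := Nat.le_log_of_pow_le (by norm_num) (h1.trans h)
  have ht0 : t ≠ 0 := by positivity
  have h3 : Nat.lcmUpto t ≤ t ^ (Nat.primesLE t).card := by
    rw [Nat.lcmUpto_eq_prod_pow_log]
    exact Finset.prod_le_pow_card _ _ _ fun p _ => Nat.pow_log_le_self p ht0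
  have h4 := Chebyshev.two_pow_le_mul_lcmUpto t
  have h5 : t + 1 ≤ 2 ^ (a + 5) := sq_succ_le_two_pow _ (by omega)
  have h6 : t ^ (Nat.primesLE t).card ≤ (2 ^ (a + 5)) ^ a :=
    (Nat.pow_le_pow_left (by omega) _).trans (Nat.pow_le_pow_right (by positivity) h2)
  have h7 : 2 ^ t ≤ 2 ^ (a + 5) * (2 ^ (a + 5)) ^ a :=
    h4.trans (Nat.mul_le_mul h5 (h3.trans h6))
  rw [← pow_mul, ← pow_add, Nat.pow_le_pow_iff_right (by norm_num), ht] at h7
  nlinarith

/-- product of the primes in `[7, t]` -/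
def pq (t : ℕ) : ℕ := ∏ p ∈ (Nat.primesLE t).filter (7 ≤ ·), p

theorem prod_primesLE_le (t : ℕ) : ∏ p ∈ Nat.primesLE t, p ≤ 30 * pq t := by
  rw [← Finset.prod_filter_mul_prod_filter_not (Nat.primesLE t) (7 ≤ ·), mul_comm, pq]
  refine Nat.mul_le_mul_right _ ?_
  have : (Nat.primesLE t).filter (fun p => ¬ 7 ≤ p) ⊆ {2, 3, 5} := by
    intro p hp
    simp only [Finset.mem_filter, Nat.mem_primesLE, not_le] at hp
    obtain ⟨⟨-, hp⟩, h7⟩ := hp
    interval_cases p <;> simp_all (config := {decide := true})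
  refine (Finset.prod_le_prod_of_subset_of_one_le' this ?_).trans (by decide)
  intro i hi _
  simp only [Finset.mem_insert, Finset.mem_singleton] at hi
  omega

theorem pq_succ_le (t : ℕ) : pq (t + 1) ≤ (t + 1) * pq t := by
  have : (Nat.primesLE (t + 1)).filter (7 ≤ ·) ⊆
      insert (t + 1) ((Nat.primesLE t).filter (7 ≤ ·)) := by
    intro p hp
    simp only [Finset.mem_filter, Nat.mem_primesLE, Finset.mem_insert] at hp ⊢
    by_cases h : p = t + 1
    · exact Or.inl h
    · exact Or.inr ⟨⟨by omega, hp.1.2⟩, hp.2⟩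
  refine (Finset.prod_le_prod_of_subset_of_one_le' this ?_).trans ?_
  · intro i hi _
    simp only [Finset.mem_filter, Finset.mem_insert] at hi
    omega
  · rw [Finset.prod_insert (by simp [Nat.mem_primesLE]), pq]

theorem exists_coprime_factors (n : ℕ) (hn : 1 ≤ n) :
    ∃ S : Finset ℕ, (∀ q ∈ S, 6 ≤ q) ∧ (∀ q ∈ S, ∀ r ∈ S, q ≠ r → Nat.Coprime q r) ∧
      2 * n ≤ ∏ q ∈ S, q ∧ ∏ q ∈ S, q ≤ 16 * n ∧
      ∀ q ∈ S, q ≤ 16 * (Nat.log 2 (30 * n) + 5) ^ 2 := by
  set T := (Nat.log 2 (30 * n) + 5) ^ 2 with hT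
  have hT' : n < pq T := by
    have := (lt_prod_primesLE (30 * n)).trans_le (prod_primesLE_le _)
    rw [← hT] at this
    omega
  have hex : ∃ t, n < pq t := ⟨T, hT'⟩
  have hle : Nat.find hex ≤ T := Nat.find_min' hex hT'
  have h0 : Nat.find hex ≠ 0 := by
    intro h
    have := Nat.find_spec hex
    rw [h] at this
    simp [pq] at this
    omega
  obtain ⟨t, ht⟩ := Nat.exists_eq_succ_of_ne_zero h0
  have h1 : n < pq (t + 1) := by have := Nat.find_spec hex; rwa [ht] at this
  have h2 : pq t ≤ n := by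
    have := Nat.find_min hex (show t < Nat.find hex by omega)
    omega
  have h3 := h1.trans_le (pq_succ_le t)
  have hM : 0 < pq t := by
    rcases Nat.eq_zero_or_pos (pq t) with h | h
    · rw [h] at h3; omega
    · exact h
  have hex2 : ∃ j, 8 * n ≤ 2 ^ j * pq t := ⟨8 * n, by
    have := Nat.lt_two_pow_self (n := 8 * n)
    nlinarith⟩
  have hj1 := Nat.find_spec hex2
  have hj3 : 3 ≤ Nat.find hex2 := by
    by_contra h
    have : 2 ^ Nat.find hex2 ≤ 2 ^ 2 := Nat.pow_le_pow_right (by norm_num) (by omega)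
    nlinarith
  obtain ⟨j, hj⟩ : ∃ j, Nat.find hex2 = j + 1 := ⟨Nat.find hex2 - 1, by omega⟩
  have hj2 : 2 ^ j * pq t < 8 * n := by
    have := Nat.find_min hex2 (show j < Nat.find hex2 by omega)
    omega
  rw [hj] at hj1 hj3
  have h8 : 2 ^ 3 ≤ 2 ^ (j + 1) := Nat.pow_le_pow_right (by norm_num) hj3
  have hcop : ∀ p ∈ (Nat.primesLE t).filter (7 ≤ ·), Nat.Coprime (2 ^ (j + 1)) p := by
    intro p hp
    simp only [Finset.mem_filter, Nat.mem_primesLE] at hp
    refine Nat.Coprime.pow_left _ ((Nat.coprime_primes Nat.prime_two hp.1.2).2 (by omega))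
  have hnot : 2 ^ (j + 1) ∉ (Nat.primesLE t).filter (7 ≤ ·) := by
    intro h
    have := hcop _ h
    rw [Nat.coprime_self] at this
    omega
  refine ⟨insert (2 ^ (j + 1)) ((Nat.primesLE t).filter (7 ≤ ·)), ?_, ?_, ?_, ?_, ?_⟩
  · intro q hq
    simp only [Finset.mem_insert, Finset.mem_filter] at hq
    omega
  · intro q hq r hr hqr
    rcases Finset.mem_insert.1 hq with rfl | hq <;> rcases Finset.mem_insert.1 hr with rfl | hr
    · exact absurd rfl hqr
    · exact hcop _ hr
    · exact (hcop _ hq).symm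
    · simp only [Finset.mem_filter, Nat.mem_primesLE] at hq hr
      exact (Nat.coprime_primes hq.1.2 hr.1.2).2 hqr
  · rw [Finset.prod_insert hnot]
    change 2 * n ≤ 2 ^ (j + 1) * pq t
    omega
  · rw [Finset.prod_insert hnot]
    change 2 ^ (j + 1) * pq t ≤ 16 * n
    rw [pow_succ]
    nlinarith
  · intro q hq
    rcases Finset.mem_insert.1 hq with rfl | hq
    · have : 2 ^ j * pq t < 8 * (t + 1) * pq t := by nlinarith
      have := Nat.lt_of_mul_lt_mul_right this
      rw [pow_succ]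
      omega
    · simp only [Finset.mem_filter, Nat.mem_primesLE] at hq
      omega

end Crest.Agent.R324
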