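import Crest.Agent.R324.Dft
import Crest.Agent.R324.Primes

/-! Assembly: the cost of a Fourier matrix of arbitrary order. -/

set_option autoImplicit false
set_option linter.unusedSectionVars false

namespace Crest.Agent.R324

open Finset Matrix
open scoped Kronecker

variable {V : Type} [AddCommGroup V] [Module ℂ V]

/-- The cost of applying `M` to a batch of vectors indexed by `β`. -/
def BCost (V : Type) [AddCommGroup V] [Module ℂ V] (β : Type) {ι κ : Type} [Fintype κ]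
    (M : Matrix ι κ ℂ) (c : ℝ) : Prop :=
  ∀ x : β → κ → V, R (⋃ b, Set.range (x b)) c (⋃ b, Set.range (app M (x b)))

theorem BCost.pad {β β₀ ι κ : Type} [Fintype β] [Fintype β₀] [Fintype κ] {M : Matrix ι κ ℂ}
    {c : ℝ} (h : BCost V β₀ M c) (g : ℕ) (hg : Fintype.card β ≤ g * Fintype.card β₀) :
    BCost V β M (g * c) := by
  classical
  intro x
  obtain ⟨e⟩ : Nonempty (β ↪ Fin g × β₀) :=
    Function.Embedding.nonempty_of_card_le (by simpa using hg)
  let x' : Fin g × β₀ → κ → V := Function.extend e x 0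
  have key : ∀ t : Fin g, R (⋃ b, Set.range (x b)) c (⋃ b, Set.range (app M (x' (t, b)))) := by
    intro t
    refine (h fun b => x' (t, b)).mono ?_ le_rfl (Set.subset_insert _ _)
    refine Set.iUnion_subset fun b => ?_
    rintro _ ⟨k, rfl⟩
    by_cases hb : ∃ b', e b' = (t, b)
    · obtain ⟨b', hb'⟩ := hb
      right
      refine Set.mem_iUnion.2 ⟨b', k, ?_⟩
      simp only [x', ← hb', e.injective.extend_apply]
    · left
      simp only [x', Function.extend_apply' _ _ _ hb, Pi.zero_apply]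
  have := R.iUnion_const key
  rw [Fintype.card_fin] at this
  refine this.mono_right (Set.iUnion_subset fun b => ?_)
  refine Set.subset_iUnion_of_subset (e b).1 (Set.subset_iUnion_of_subset (e b).2 ?_)
  simp only [x', Prod.mk.eta, e.injective.extend_apply, subset_refl]

theorem Cost.kronecker {A B : Type} [Fintype A] [Fintype B] {F : Matrix A A ℂ} {G : Matrix B B ℂ}
    {c d : ℝ} (hF : BCost V B F c) (hG : BCost V A G d) : Cost V (F ⊗ₖ G) (d + c) := by
  intro x
  have h1 := hG (fun u v => x (u, v))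
  have h2 := hF (fun s u => app G (fun v => x (u, v)) s)
  refine ((h1.mono_left ?_).trans (h2.mono_left ?_)).mono_right ?_
  · refine Set.iUnion_subset fun u => ?_
    rintro _ ⟨v, rfl⟩
    exact ⟨_, rfl⟩
  · refine Set.iUnion_subset fun s => ?_
    rintro _ ⟨u, rfl⟩
    exact Set.mem_iUnion.2 ⟨u, s, rfl⟩
  · rintro _ ⟨⟨s, t⟩, rfl⟩
    refine Set.mem_iUnion.2 ⟨t, s, ?_⟩
    simp only [app, Fintype.sum_prod_type, Matrix.kroneckerMap_apply, Finset.smul_sum, mul_smul]

section tp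

variable {I : Type} [Fintype I] [DecidableEq I] {κ : I → Type} [∀ i, Fintype (κ i)]
  [∀ i, DecidableEq (κ i)]

theorem bcost_of_blocks {β : Type} [Fintype β] [DecidableEq β] (F : ∀ i, Matrix (κ i) (κ i) ℂ)
    {c : ℝ} (h : Cost V (tp fun i => blockDiagonal fun _ : β => F i) c) :
    BCost V (I → β) (tp F) c := by
  intro x
  refine ((h fun u => x (fun i => (u i).2) (fun i => (u i).1)).mono_left ?_).mono_right ?_
  · rintro _ ⟨u, rfl⟩
    exact Set.mem_iUnion.2 ⟨_, _, rfl⟩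
  · refine Set.iUnion_subset fun b => ?_
    rintro _ ⟨s, rfl⟩
    refine ⟨fun i => (s i, b i), ?_⟩
    simp only [app]
    rw [← Equiv.sum_comp (Equiv.arrowProdEquivProdArrow I κ (fun _ => β)).symm,
      Fintype.sum_prod_type]
    refine Finset.sum_congr rfl fun u _ => ?_
    rw [Finset.sum_eq_single b]
    · simp [tp, Equiv.arrowProdEquivProdArrow, Matrix.blockDiagonal_apply]
    · intro b' _ hb'
      obtain ⟨i, hi⟩ := Function.ne_iff.1 hb'
      simp only [tp, Equiv.arrowProdEquivProdArrow, Matrix.blockDiagonal_apply, Matrix.of_apply,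
        Equiv.coe_fn_symm_mk]
      rw [Finset.prod_eq_zero (Finset.mem_univ i) (if_neg hi.symm), zero_smul]
    · simp

theorem tp_smul_one (c : I → ℂ) :
    tp (fun i => c i • (1 : Matrix (κ i) (κ i) ℂ)) = (∏ i, c i) • 1 := by
  ext x y
  simp only [tp, Matrix.of_apply, Matrix.smul_apply, Matrix.one_apply, smul_eq_mul,
    Finset.prod_mul_distrib]
  congr 1
  by_cases h : x = y
  · simp [h]
  · obtain ⟨i, hi⟩ := Function.ne_iff.1 h
    rw [Finset.prod_eq_zero (Finset.mem_univ i) (if_neg hi), if_neg h]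

theorem bcost_dft (p : I → ℕ) [∀ i, NeZero (p i)] (ζ : I → ℂ)
    (hζ : ∀ i, IsPrimitiveRoot (ζ i) (p i)) (K : ℕ)
    (hK : ∀ i, 144 * (Nat.log 2 (p i) + 2) + 216 ≤ K) (c : ℝ) (hc : 0 ≤ c)
    (hP : ∀ l ≤ Fintype.card I, PP V l c) (β : Type) [Fintype β]
    (hβ : 6 ^ Fintype.card I ≤ 6 * Fintype.card β) :
    BCost V β (tp fun i => dft (ζ i) (ZMod.val : ZMod (p i) → ℕ))
      (7 * (K * (c + 1) + 1) * (Fintype.card (∀ i, ZMod (p i)) * Fintype.card β)) := by
  have h1 := bcost_of_blocks _ (cost_tp_word c hc hP K _ fun i => (word_six (hζ i)).le (hK i))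
  have hc6 : Fintype.card (I → Fin 6) = 6 ^ Fintype.card I := by simp
  have h2 := h1.pad (β := β) (Fintype.card β / 6 ^ Fintype.card I + 1) (by
    rw [hc6, mul_comm]; exact (Nat.lt_mul_div_succ _ (by positivity)).le)
  intro x
  refine (h2 x).mono_cost ?_
  have h3 : Fintype.card (∀ i, ZMod (p i) × Fin 6) =
      Fintype.card (∀ i, ZMod (p i)) * 6 ^ Fintype.card I := by
    rw [Fintype.card_congr (Equiv.arrowProdEquivProdArrow I _ _), Fintype.card_prod, hc6]
  have h4 : (Fintype.card β / 6 ^ Fintype.card I + 1) * 6 ^ Fintype.card I ≤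
      7 * Fintype.card β := by
    have := Nat.div_mul_le_self (Fintype.card β) (6 ^ Fintype.card I)
    rw [add_mul]
    omega
  rw [h3]
  have h5 : ((Fintype.card β / 6 ^ Fintype.card I + 1 : ℕ) : ℝ) * (6 ^ Fintype.card I : ℕ) ≤
      7 * Fintype.card β := by exact_mod_cast h4
  generalize ((Fintype.card β / 6 ^ Fintype.card I + 1 : ℕ) : ℝ) = g at h5 ⊢
  rw [Nat.cast_mul]
  generalize ((6 ^ Fintype.card I : ℕ) : ℝ) = s at h5 ⊢
  have h6 : 0 ≤ (K * (c + 1) + 1) * (Fintype.card (∀ i, ZMod (p i)) : ℝ) := by positivity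
  nlinarith

end tp

theorem cost_dft (n : ℕ) (S : Finset ℕ) (h6 : ∀ q ∈ S, 6 ≤ q)
    (hcop : ∀ q ∈ S, ∀ r ∈ S, q ≠ r → Nat.Coprime q r) (hn : 2 * n ≤ ∏ q ∈ S, q) (K : ℕ)
    (hK : ∀ q ∈ S, 144 * (Nat.log 2 q + 2) + 216 ≤ K) (c : ℝ) (hc : 0 ≤ c)
    (hP : ∀ l ≤ S.card, PP V l c) {ζ : ℂ} (hζ : ζ ≠ 0) :
    Cost V (dft ζ (Fin.val : Fin n → ℕ))
      (n + (28 * (K * (c + 1) + 1) + 2) * (∏ q ∈ S, q : ℕ)) := by
  classical
  obtain ⟨S1, hS1, hc1⟩ := Finset.exists_subset_card_eq (s := S) (n := S.card / 2) (by omega)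
  set S2 := S \ S1 with hS2
  have hc2 : S2.card = S.card - S.card / 2 := by rw [hS2, Finset.card_sdiff_of_subset hS1, hc1]
  have hS2' : S2 ⊆ S := Finset.sdiff_subset
  have nz1 : ∀ i : S1, NeZero (i : ℕ) := fun i => ⟨by have := h6 _ (hS1 i.2); omega⟩
  have nz2 : ∀ i : S2, NeZero (i : ℕ) := fun i => ⟨by have := h6 _ (hS2' i.2); omega⟩
  let A1 := ∀ i : S1, ZMod (i : ℕ)
  let A2 := ∀ i : S2, ZMod (i : ℕ)
  have cA1 : Fintype.card A1 = ∏ q ∈ S1, q := by
    simp only [A1, Fintype.card_pi, ZMod.card]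
    exact Finset.prod_coe_sort S1 (fun q => q)
  have cA2 : Fintype.card A2 = ∏ q ∈ S2, q := by
    simp only [A2, Fintype.card_pi, ZMod.card]
    exact Finset.prod_coe_sort S2 (fun q => q)
  have cA : Fintype.card A1 * Fintype.card A2 = ∏ q ∈ S, q := by
    rw [cA1, cA2, mul_comm, hS2, Finset.prod_sdiff hS1]
  have l1 : 6 ^ S1.card ≤ Fintype.card A1 :=
    cA1 ▸ Finset.pow_card_le_prod _ _ _ fun q hq => h6 q (hS1 hq)
  have l2 : 6 ^ S2.card ≤ Fintype.card A2 :=
    cA2 ▸ Finset.pow_card_le_prod _ _ _ fun q hq => h6 q (hS2' hq)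
  have b1 : 6 ^ Fintype.card S1 ≤ 6 * Fintype.card A2 := by
    rw [Fintype.card_coe]
    have : 6 ^ S1.card ≤ 6 ^ S2.card := Nat.pow_le_pow_right (by norm_num) (by omega)
    omega
  have b2 : 6 ^ Fintype.card S2 ≤ 6 * Fintype.card A1 := by
    rw [Fintype.card_coe]
    have : 6 ^ S2.card ≤ 6 ^ (S1.card + 1) := Nat.pow_le_pow_right (by norm_num) (by omega)
    rw [pow_succ] at this
    omega
  have costF : ∀ ω : ℕ → ℂ, (∀ q, q ≠ 0 → IsPrimitiveRoot (ω q) q) →
      Cost V ((tp fun i : S1 => dft (ω i) (ZMod.val : ZMod (i : ℕ) → ℕ)) ⊗ₖ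
        (tp fun i : S2 => dft (ω i) (ZMod.val : ZMod (i : ℕ) → ℕ)))
        (14 * (K * (c + 1) + 1) * (∏ q ∈ S, q : ℕ)) := by
    intro ω hω
    have h1 := bcost_dft (V := V) (fun i : S1 => (i : ℕ)) (fun i => ω i)
      (fun i => hω _ (NeZero.ne _)) K (fun i => hK _ (hS1 i.2)) c hc
      (fun l hl => hP l (by rw [Fintype.card_coe] at hl; omega)) A2 b1
    have h2 := bcost_dft (V := V) (fun i : S2 => (i : ℕ)) (fun i => ω i)
      (fun i => hω _ (NeZero.ne _)) K (fun i => hK _ (hS2' i.2)) c hc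
      (fun l hl => hP l (by rw [Fintype.card_coe] at hl; omega)) A1 b2
    refine (Cost.kronecker h1 h2).mono (le_of_eq ?_)
    rw [← cA]
    push_cast
    ring
  let ω : ℕ → ℂ := fun q => Complex.exp (2 * Real.pi * Complex.I / q)
  have hω : ∀ q, q ≠ 0 → IsPrimitiveRoot (ω q) q := fun q hq => Complex.isPrimitiveRoot_exp q hq
  have cF := costF ω hω
  have cG := costF (fun q => (ω q)⁻¹) (fun q hq => (hω q hq).inv)
  set F := (tp fun i : S1 => dft (ω i) (ZMod.val : ZMod (i : ℕ) → ℕ)) ⊗ₖ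
        (tp fun i : S2 => dft (ω i) (ZMod.val : ZMod (i : ℕ) → ℕ)) with hF
  set G := (tp fun i : S1 => dft (ω i)⁻¹ (ZMod.val : ZMod (i : ℕ) → ℕ)) ⊗ₖ
        (tp fun i : S2 => dft (ω i)⁻¹ (ZMod.val : ZMod (i : ℕ) → ℕ)) with hG
  obtain ⟨t, ht0, ht⟩ : ∃ t : ℂ, t ≠ 0 ∧ G * F = t • 1 := by
    refine ⟨(∏ i : S1, ((i : ℕ) : ℂ)) * ∏ i : S2, ((i : ℕ) : ℂ), ?_, ?_⟩
    · exact mul_ne_zero (Finset.prod_ne_zero_iff.2 fun i _ => by exact_mod_cast NeZero.ne _)
        (Finset.prod_ne_zero_iff.2 fun i _ => by exact_mod_cast NeZero.ne _)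
    · rw [hF, hG, ← Matrix.mul_kronecker_mul, ← tp_mul, ← tp_mul]
      simp only [dft_inv_mul (hω _ (NeZero.ne _)), tp_smul_one, Matrix.smul_kronecker,
        Matrix.kronecker_smul, Matrix.one_kronecker_one, smul_smul, mul_comm]
  have hFadd : ∀ s u v, F s (u + v) = F s u * F s v := by
    intro s u v
    simp only [hF, Matrix.kroneckerMap_apply, tp, Matrix.of_apply, Prod.fst_add, Prod.snd_add,
      Pi.add_apply, dft_add (hω _ (NeZero.ne _)).pow_eq_one, Finset.prod_mul_distrib]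
    ring
  let e : ℤ →+ A1 × A2 := (AddMonoidHom.pi fun i : S1 => Int.castAddHom (ZMod (i : ℕ))).prod
    (AddMonoidHom.pi fun i : S2 => Int.castAddHom (ZMod (i : ℕ)))
  have he : ∀ s : ℤ, |s| < 2 * n → e s = 0 → s = 0 := by
    intro s hs h
    have hd : ∀ q ∈ S, (q : ℤ) ∣ s := by
      intro q hq
      by_cases h1 : q ∈ S1
      · exact (ZMod.intCast_zmod_eq_zero_iff_dvd s q).1 (congrFun (Prod.ext_iff.1 h).1 ⟨q, h1⟩)
      · exact (ZMod.intCast_zmod_eq_zero_iff_dvd s q).1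
          (congrFun (Prod.ext_iff.1 h).2 ⟨q, Finset.mem_sdiff.2 ⟨hq, h1⟩⟩)
    have := Finset.prod_dvd_of_coprime (t := S) (s := fun q : ℕ => (q : ℤ))
      (fun q hq r hr hqr => Nat.isCoprime_iff_coprime.2 (hcop q hq r hr hqr)) hd
    refine Int.eq_zero_of_abs_lt_dvd this ?_
    have : ((2 * n : ℕ) : ℤ) ≤ ((∏ q ∈ S, q : ℕ) : ℤ) := by exact_mod_cast hn
    push_cast at this
    omega
  obtain ⟨d, cc, hdc⟩ := bluestein n (Fin.val : Fin n → ℕ) (fun k => k.2) e he hζ
  obtain ⟨D, hD⟩ := circulant_diag F (t⁻¹ • G) hFadd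
    (by rw [Matrix.smul_mul, ht, smul_smul, inv_mul_cancel₀ ht0, one_smul]) cc
  set g : Fin n → A1 × A2 := fun k => e (k.val : ℤ) with hg
  have hginj : Function.Injective g := by
    intro k l hkl
    have := he ((k.val : ℤ) - l.val) (by
      have := k.2; have := l.2; rw [abs_lt]; omega)
      (by rw [map_sub]; exact sub_eq_zero.2 hkl)
    exact Fin.ext (by omega)
  have c1 : Cost V (diagonal d * sel g) (Fintype.card (Fin n)) :=
    Cost.of_row _ fun k => Or.inr ⟨g k, fun u hu => by simp [sel, hu.symm]⟩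
  have c2 : Cost V (t⁻¹ • diagonal D) (Fintype.card (A1 × A2)) :=
    Cost.of_row _ fun k => Or.inr ⟨k, fun u hu => by simp [Matrix.diagonal_apply_ne _ hu.symm]⟩
  have c3 : Cost V (ins g * diagonal d) (Fintype.card (A1 × A2)) := by
    refine Cost.of_row _ fun u => ?_
    by_cases hu : ∃ k, g k = u
    · obtain ⟨k, rfl⟩ := hu
      exact Or.inr ⟨k, fun l hl => by
        rw [ins_mul_apply_mem hginj, Matrix.diagonal_apply_ne _ hl.symm]⟩
    · exact Or.inl fun l => ins_mul_apply_not_mem _ (fun k hk => hu ⟨k, hk⟩) _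
  have := (((c1.mul cG).mul c2).mul cF).mul c3
  have e1 : dft ζ (Fin.val : Fin n → ℕ) =
      diagonal d * sel g * G * (t⁻¹ • diagonal D) * F * (ins g * diagonal d) := by
    rw [hdc, hD]
    simp only [Matrix.mul_assoc, Matrix.smul_mul, Matrix.mul_smul]
  rw [e1]
  refine this.mono (le_of_eq ?_)
  rw [Fintype.card_prod, cA, Fintype.card_fin]
  ring

end Crest.Agent.R324
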