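import Mathlib
import Crest.Prelude.Def_LinCircuit

/-! Straight-line linear programs over an abstract complex module: reachability with a cost. -/

set_option autoImplicit false

namespace Crest.Agent.R324

open Finset

variable {V : Type} [AddCommGroup V] [Module ℂ V]

/-- `w` is produced by one gate from the available set `A`. -/
def Gate (A : Set V) (w : V) : Prop :=
  ∃ u ∈ A, ∃ v ∈ A, w = u + v ∨ w = u - v ∨ ∃ c : ℂ, w = c • u

/-- `s` gates lead from the available set `A` to the available set `B`. -/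
inductive StepsN : Set V → ℕ → Set V → Prop
  | nil (A : Set V) : StepsN A 0 A
  | cons {A B : Set V} {s : ℕ} {w : V} : Gate A w → StepsN (insert w A) s B → StepsN A (s + 1) B

theorem StepsN.subset {A B : Set V} {s : ℕ} (h : StepsN A s B) : A ⊆ B := by
  induction h with
  | nil A => exact subset_rfl
  | cons _ _ ih => exact (Set.subset_insert _ _).trans ih

theorem StepsN.trans {A B C : Set V} {s t : ℕ} (h : StepsN A s B) (h' : StepsN B t C) :
    StepsN A (s + t) C := by
  induction h with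
  | nil A => simpa using h'
  | @cons A B s w hg _ ih =>
    have := StepsN.cons hg (ih h')
    rwa [show s + t + 1 = s + 1 + t by ring] at this

/-- At most `c` gates lead from `A` to `B`. -/
def Steps (A : Set V) (c : ℝ) (B : Set V) : Prop := ∃ s : ℕ, (s : ℝ) ≤ c ∧ StepsN A s B

theorem Steps.subset {A B : Set V} {c : ℝ} (h : Steps A c B) : A ⊆ B := by
  obtain ⟨s, -, h⟩ := h
  exact h.subset

theorem Steps.trans {A B C : Set V} {c d : ℝ} (h : Steps A c B) (h' : Steps B d C) :
    Steps A (c + d) C := by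
  obtain ⟨s, hs, h⟩ := h
  obtain ⟨t, ht, h'⟩ := h'
  exact ⟨s + t, by push_cast; linarith, h.trans h'⟩

theorem Steps.mono {A B : Set V} {c d : ℝ} (h : Steps A c B) (hcd : c ≤ d) : Steps A d B := by
  obtain ⟨s, hs, h⟩ := h
  exact ⟨s, hs.trans hcd, h⟩

theorem Steps.refl (A : Set V) : Steps A 0 A := ⟨0, by simp, StepsN.nil A⟩

/-- From any available set containing `0` and `S`, at most `c` gates make all of `T` available. -/
def R (S : Set V) (c : ℝ) (T : Set V) : Prop :=
  ∀ A : Set V, (0 : V) ∈ A → S ⊆ A → ∃ B, Steps A c B ∧ T ⊆ B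

theorem R.of_subset {S T : Set V} (h : T ⊆ insert 0 S) : R S 0 T := by
  intro A h0 hS
  refine ⟨A, Steps.refl A, fun u hu => ?_⟩
  rcases h hu with rfl | hu
  · exact h0
  · exact hS hu

theorem R.refl (S : Set V) : R S 0 S := R.of_subset (Set.subset_insert _ _)

theorem R.mono {S S' T T' : Set V} {c c' : ℝ} (h : R S c T) (hS : S ⊆ insert 0 S') (hc : c ≤ c')
    (hT : T' ⊆ insert 0 T) : R S' c' T' := by
  intro A h0 hA
  obtain ⟨B, hB, hTB⟩ := h A h0 (fun u hu => by
    rcases hS hu with rfl | hu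
    · exact h0
    · exact hA hu)
  refine ⟨B, hB.mono hc, fun u hu => ?_⟩
  rcases hT hu with rfl | hu
  · exact hB.subset h0
  · exact hTB hu

theorem R.mono_cost {S T : Set V} {c c' : ℝ} (h : R S c T) (hc : c ≤ c') : R S c' T :=
  h.mono (Set.subset_insert _ _) hc (Set.subset_insert _ _)

theorem R.mono_left {S S' T : Set V} {c : ℝ} (h : R S c T) (hS : S ⊆ S') : R S' c T :=
  h.mono (hS.trans (Set.subset_insert _ _)) le_rfl (Set.subset_insert _ _)

theorem R.mono_right {S T T' : Set V} {c : ℝ} (h : R S c T) (hT : T' ⊆ T) : R S c T' :=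
  h.mono (Set.subset_insert _ _) le_rfl (hT.trans (Set.subset_insert _ _))

theorem R.trans' {S T U : Set V} {c d : ℝ} (h : R S c T) (h' : R (S ∪ T) d U) :
    R S (c + d) U := by
  intro A h0 hA
  obtain ⟨B, hB, hTB⟩ := h A h0 hA
  obtain ⟨C, hC, hUC⟩ := h' B (hB.subset h0) (Set.union_subset (hA.trans hB.subset) hTB)
  exact ⟨C, hB.trans hC, hUC⟩

theorem R.trans {S T U : Set V} {c d : ℝ} (h : R S c T) (h' : R T d U) : R S (c + d) U :=
  h.trans' (h'.mono_left Set.subset_union_right)

theorem R.union {S T U : Set V} {c d : ℝ} (h : R S c T) (h' : R S d U) :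
    R S (c + d) (T ∪ U) := by
  intro A h0 hA
  obtain ⟨B, hB, hTB⟩ := h A h0 hA
  obtain ⟨C, hC, hUC⟩ := h' B (hB.subset h0) (hA.trans hB.subset)
  exact ⟨C, hB.trans hC, Set.union_subset (hTB.trans hC.subset) hUC⟩

theorem R.biUnion {J : Type} {S : Set V} {c : J → ℝ} {T : J → Set V} (s : Finset J)
    (h : ∀ j ∈ s, R S (c j) (T j)) : R S (∑ j ∈ s, c j) (⋃ j ∈ s, T j) := by
  classical
  induction s using Finset.induction_on with
  | empty => simpa using R.of_subset (S := S) (T := ∅) (Set.empty_subset _)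
  | insert a s ha ih =>
    rw [Finset.sum_insert ha, Finset.set_biUnion_insert]
    exact (h a (Finset.mem_insert_self _ _)).union
      (ih fun j hj => h j (Finset.mem_insert_of_mem hj))

theorem R.iUnion {J : Type} [Fintype J] {S : Set V} {c : J → ℝ} {T : J → Set V}
    (h : ∀ j, R S (c j) (T j)) : R S (∑ j, c j) (⋃ j, T j) := by
  simpa using R.biUnion (S := S) (c := c) (T := T) Finset.univ (fun j _ => h j)

theorem R.iUnion_const {J : Type} [Fintype J] {S : Set V} {c : ℝ} {T : J → Set V}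
    (h : ∀ j, R S c (T j)) : R S (Fintype.card J * c) (⋃ j, T j) := by
  simpa using R.iUnion (S := S) (c := fun _ => c) (T := T) h

theorem R.range {J : Type} [Fintype J] {S : Set V} {c : ℝ} {x : J → V}
    (h : ∀ j, R S c {x j}) : R S (Fintype.card J * c) (Set.range x) := by
  refine (R.iUnion_const h).mono_right ?_
  rintro _ ⟨j, rfl⟩
  exact Set.mem_iUnion.2 ⟨j, rfl⟩

theorem R.gate {S : Set V} {w : V} (h : Gate (insert 0 S) w) : R S 1 {w} := by
  intro A h0 hA
  have hsub : insert 0 S ⊆ A := Set.insert_subset h0 hA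
  obtain ⟨u, hu, v, hv, h⟩ := h
  refine ⟨insert w A, ⟨1, by simp, ?_⟩, by simp⟩
  exact StepsN.cons ⟨u, hsub hu, v, hsub hv, h⟩ (StepsN.nil _)

theorem R.add {S : Set V} {u v : V} (hu : u ∈ S) (hv : v ∈ S) : R S 1 {u + v} :=
  R.gate ⟨u, Or.inr hu, v, Or.inr hv, Or.inl rfl⟩

theorem R.sub {S : Set V} {u v : V} (hu : u ∈ S) (hv : v ∈ S) : R S 1 {u - v} :=
  R.gate ⟨u, Or.inr hu, v, Or.inr hv, Or.inr (Or.inl rfl)⟩

theorem R.smul {S : Set V} {u : V} (c : ℂ) (hu : u ∈ insert 0 S) : R S 1 {c • u} :=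
  R.gate ⟨u, hu, u, hu, Or.inr (Or.inr ⟨c, rfl⟩)⟩

/-- A linear combination with `card s` terms costs at most `2 * card s` gates. -/
theorem R.sum {J : Type} {S : Set V} (s : Finset J) (c : J → ℂ) (u : J → V)
    (hu : ∀ j ∈ s, u j ∈ S) : R S (2 * s.card) {∑ j ∈ s, c j • u j} := by
  classical
  induction s using Finset.induction_on with
  | empty => simpa using R.of_subset (S := S) (T := {0}) (by simp)
  | insert a s ha ih =>
    rw [Finset.sum_insert ha, Finset.card_insert_of_notMem ha]
    have h1 := (R.smul (S := S) (c a) (Or.inr (hu a (Finset.mem_insert_self _ _)))).union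
      (ih fun j hj => hu j (Finset.mem_insert_of_mem hj))
    have h2 := h1.trans (R.add (u := c a • u a) (v := ∑ j ∈ s, c j • u j) (by simp) (by simp))
    refine h2.mono_cost ?_
    push_cast
    linarith

theorem R.comb2 {S : Set V} (a b : ℂ) {u v : V} (hu : u ∈ S) (hv : v ∈ S) :
    R S 3 {a • u + b • v} := by
  have h1 := (R.smul (S := S) a (Or.inr hu)).union (R.smul (S := S) b (Or.inr hv))
  have h2 := h1.trans (R.add (u := a • u) (v := b • v) (by simp) (by simp))
  refine h2.mono_cost ?_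
  norm_num

/-! ### Conversion to `LinCircuit` -/

open Crest.FourierCircuit

/-- The list of values after the gates `gs`. -/
def vals {n : ℕ} (gs : List LGate) (x : Fin n → ℂ) : List ℂ :=
  gs.foldl (fun avail g => avail ++ [g.value avail]) (List.ofFn x ++ [0])

theorem vals_snoc {n : ℕ} (gs : List LGate) (g : LGate) (x : Fin n → ℂ) :
    vals (gs ++ [g]) x = vals gs x ++ [g.value (vals gs x)] := by
  simp [vals, List.foldl_append]

theorem vals_length {n : ℕ} (gs : List LGate) (x : Fin n → ℂ) :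
    (vals gs x).length = n + 1 + gs.length := by
  induction gs using List.reverseRecOn with
  | nil => simp [vals]
  | append_singleton gs g ih => rw [vals_snoc]; simp [ih]; ring

/-- Extension by zero of an input vector. -/
def extz {n : ℕ} (x : Fin n → ℂ) : ℕ → ℂ := fun k => if h : k < n then x ⟨k, h⟩ else 0

/-- All of `A` is available after the gates `gs`. -/
def Good (n : ℕ) (gs : List LGate) (A : Set ((ℕ → ℂ) → ℂ)) : Prop :=
  ∀ u ∈ A, ∃ pos < n + 1 + gs.length, ∀ x : Fin n → ℂ, (vals gs x).getD pos 0 = u (extz x)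

theorem Good.snoc {n : ℕ} {gs : List LGate} {A : Set ((ℕ → ℂ) → ℂ)} (h : Good n gs A) (g : LGate)
    (w : (ℕ → ℂ) → ℂ) (hw : ∀ x : Fin n → ℂ, g.value (vals gs x) = w (extz x)) :
    Good n (gs ++ [g]) (insert w A) := by
  intro u hu
  rcases hu with rfl | hu
  · refine ⟨n + 1 + gs.length, by simp, fun x => ?_⟩
    rw [vals_snoc, List.getD_append_right _ _ _ _ (by rw [vals_length]), vals_length]
    simp [hw]
  · obtain ⟨pos, hpos, hu⟩ := h u hu
    refine ⟨pos, by simp; omega, fun x => ?_⟩
    rw [vals_snoc, List.getD_append _ _ _ _ (by rw [vals_length]; exact hpos), hu]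

theorem StepsN.good {n : ℕ} {A B : Set ((ℕ → ℂ) → ℂ)} {s : ℕ} (h : StepsN A s B) :
    ∀ gs : List LGate, Good n gs A → ∃ gs' : List LGate, gs'.length = gs.length + s ∧
      Good n gs' B := by
  induction h with
  | nil A => exact fun gs hg => ⟨gs, rfl, hg⟩
  | @cons A B s w hg _ ih =>
    intro gs hgs
    obtain ⟨u, hu, v, hv, hw⟩ := hg
    obtain ⟨p, -, hp⟩ := hgs u hu
    obtain ⟨q, -, hq⟩ := hgs v hv
    have key : ∃ g : LGate, ∀ x : Fin n → ℂ, g.value (vals gs x) = w (extz x) := by
      rcases hw with rfl | rfl | ⟨c, rfl⟩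
      · exact ⟨LGate.add p q, fun x => by simp only [LGate.value, hp, hq, Pi.add_apply]⟩
      · exact ⟨LGate.sub p q, fun x => by simp only [LGate.value, hp, hq, Pi.sub_apply]⟩
      · exact ⟨LGate.smul c p, fun x => by
          simp only [LGate.value, hp, Pi.smul_apply, smul_eq_mul]⟩
    obtain ⟨g, hg⟩ := key
    obtain ⟨gs', hl, hgs'⟩ := ih (gs ++ [g]) (hgs.snoc g w hg)
    exact ⟨gs', by rw [hl]; simp; ring, hgs'⟩

/-- The matrix `M` applied to a family of module elements. -/
def app {ι κ : Type} [Fintype κ] (M : Matrix ι κ ℂ) (x : κ → V) : ι → V :=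
  fun i => ∑ j, M i j • x j

/-- The linear map given by `M` costs at most `c` gates. -/
def Cost (V : Type) [AddCommGroup V] [Module ℂ V] {ι κ : Type} [Fintype κ] (M : Matrix ι κ ℂ)
    (c : ℝ) : Prop :=
  ∀ x : κ → V, R (Set.range x) c (Set.range (app M x))

theorem exists_circuit {n : ℕ} (M : Matrix (Fin n) (Fin n) ℂ) (c : ℝ)
    (h : Cost ((ℕ → ℂ) → ℂ) M c) : ∃ P : LinCircuit n, P.Computes M ∧ (P.size : ℝ) ≤ c := by
  let e : Fin n → ((ℕ → ℂ) → ℂ) := fun k X => X k
  obtain ⟨B, ⟨s, hs, hB⟩, hT⟩ := h e (insert 0 (Set.range e)) (by simp) (Set.subset_insert _ _)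
  have h0 : Good n [] (insert 0 (Set.range e)) := by
    intro u hu
    rcases hu with rfl | ⟨k, rfl⟩
    · refine ⟨n, by simp, fun x => ?_⟩
      simp [vals]
    · refine ⟨k, by have := k.2; omega, fun x => ?_⟩
      simp [vals, e, extz, List.getD_eq_getElem?_getD]
  obtain ⟨gs, hl, hgs⟩ := hB.good [] h0
  choose pos hpos hval using fun k : Fin n => hgs (app M e k) (hT ⟨k, rfl⟩)
  refine ⟨⟨gs, pos⟩, fun x k => ?_, ?_⟩
  · have := hval k x
    simp only [vals] at this
    simp only [LinCircuit.values]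
    rw [this]
    simp [app, e, extz, Matrix.mulVec, dotProduct]
  · simp only [LinCircuit.size, hl]
    simpa using hs

theorem app_mul {ι κ μ : Type} [Fintype κ] [Fintype μ] (M : Matrix ι κ ℂ) (N : Matrix κ μ ℂ)
    (x : μ → V) : app (M * N) x = app M (app N x) := by
  funext i
  simp only [app, Matrix.mul_apply, Finset.sum_smul, Finset.smul_sum, mul_smul]
  exact Finset.sum_comm

theorem app_one {ι : Type} [Fintype ι] [DecidableEq ι] (x : ι → V) :
    app (1 : Matrix ι ι ℂ) x = x := by
  funext i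
  simp [app, Matrix.one_apply]

theorem Cost.mul {ι κ μ : Type} [Fintype κ] [Fintype μ] {M : Matrix ι κ ℂ} {N : Matrix κ μ ℂ}
    {c d : ℝ} (hM : Cost V M c) (hN : Cost V N d) : Cost V (M * N) (c + d) := by
  intro x
  rw [app_mul, add_comm]
  exact (hN x).trans (hM _)

theorem Cost.mono {ι κ : Type} [Fintype κ] {M : Matrix ι κ ℂ} {c d : ℝ} (hM : Cost V M c)
    (h : c ≤ d) : Cost V M d := fun x => (hM x).mono_cost h

/-- A matrix with at most one non-zero entry in each row costs one gate per row. -/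
theorem Cost.of_row {ι κ : Type} [Fintype ι] [Fintype κ] [DecidableEq κ] (M : Matrix ι κ ℂ)
    (h : ∀ i, (∀ j, M i j = 0) ∨ ∃ j₀, ∀ j, j ≠ j₀ → M i j = 0) :
    Cost V M (Fintype.card ι) := by
  intro x
  have : ∀ i, R (Set.range x) 1 {app M x i} := by
    intro i
    rcases h i with h | ⟨j₀, h⟩
    · have : app M x i = (0 : ℂ) • (0 : V) := by simp [app, h]
      rw [this]
      exact R.smul _ (Or.inl rfl)
    · have : app M x i = M i j₀ • x j₀ := by
        simp only [app]
        rw [Finset.sum_eq_single j₀]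
        · intro j _ hj; simp [h j hj]
        · simp
      rw [this]
      exact R.smul _ (Or.inr ⟨j₀, rfl⟩)
  simpa using R.range this

end Crest.Agent.R324
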