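import Crest.Agent.R324.Words

/-! Fourier matrices: radix-two factorisation, circulants, chirp factorisation, and short words
for six copies of a Fourier matrix of arbitrary order. -/

set_option autoImplicit false
set_option linter.unusedSectionVars false

namespace Crest.Agent.R324

open Finset Matrix

/-- Fourier-type matrix -/
def dft {κ : Type} (ζ : ℂ) (ν : κ → ℕ) : Matrix κ κ ℂ := Matrix.of fun j k => ζ ^ (ν j * ν k)

theorem word_fft (j : ℕ) : ∀ (ω : ℂ), IsPrimitiveRoot ω (2 ^ j) →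
    ∀ (κ : Type) [Fintype κ] [DecidableEq κ] (e : κ ≃ Fin (2 ^ j)),
      Word j (dft ω fun k => (e k).val) := by
  induction j with
  | zero =>
    intro ω _ κ _ _ e
    have h0 : ∀ k, (e k).val = 0 := fun k => by have := (e k).2; omega
    have : (dft ω fun k => (e k).val) = 1 := by
      ext s t
      have : s = t := e.injective (Fin.ext (by rw [h0, h0]))
      subst this
      rw [Matrix.one_apply_eq]
      simp only [dft, Matrix.of_apply, h0, mul_zero, pow_zero]
    rw [this]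
    exact isMono_one
  | succ j ih =>
    intro ω hω κ _ _ e
    have hω2 : IsPrimitiveRoot (ω ^ 2) (2 ^ j) := hω.pow (by positivity) (by ring)
    have hneg : ω ^ (2 ^ j) = -1 :=
      (hω.pow (by positivity) (show 2 ^ (j + 1) = 2 ^ j * 2 by ring)).eq_neg_one_of_two_right
    have h1 := Word.blockDiagonal (fun _ : Fin 2 => ih _ hω2 (Fin (2 ^ j)) (Equiv.refl _))
    have h2 := (Word.blockDiagonal (fun _ : Fin (2 ^ j) => word_hadamard)).submatrix
      (Equiv.prodComm (Fin (2 ^ j)) (Fin 2)) Prod.swap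
    have h3 := (h2.mul_mono (isMono_diagonal fun p => ω ^ (p.1.val * p.2.val))).mul h1
    let g : κ ≃ Fin (2 ^ j) × Fin 2 :=
      (e.trans (finCongr (pow_succ 2 j))).trans finProdFinEquiv.symm
    let f : κ ≃ Fin 2 × Fin (2 ^ j) :=
      (e.trans (finCongr (pow_succ' 2 j))).trans finProdFinEquiv.symm
    have hg : ∀ k, (e k).val = (g k).2.val + 2 * (g k).1.val := fun k => by
      rw [← finProdFinEquiv_apply_val (g k)]
      simp only [g, Equiv.trans_apply, Equiv.apply_symm_apply, finCongr_apply, Fin.val_cast]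
    have hf : ∀ k, (e k).val = (f k).2.val + 2 ^ j * (f k).1.val := fun k => by
      rw [← finProdFinEquiv_apply_val (f k)]
      simp only [f, Equiv.trans_apply, Equiv.apply_symm_apply, finCongr_apply, Fin.val_cast]
    have h4 := h3.submatrix g (fun k => (f k).swap)
    rw [add_comm] at h4
    convert h4 using 1
    ext s t
    simp only [dft, Matrix.of_apply, Matrix.submatrix_apply]
    rw [hf s, hg t]
    generalize f s = p
    generalize g t = q
    obtain ⟨c, u⟩ := p
    obtain ⟨v, b⟩ := q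
    simp only [Matrix.mul_apply, Fintype.sum_prod_type, Matrix.submatrix_apply,
      Matrix.blockDiagonal_apply, Matrix.diagonal_apply, Prod.swap_prod_mk, Equiv.prodComm_apply,
      Equiv.refl_apply, Matrix.of_apply, mul_ite, mul_zero, ite_mul, zero_mul,
      Finset.sum_ite_eq', Finset.mem_univ, if_true, Finset.sum_ite_eq]
    have e1 : (u.val + 2 ^ j * c.val) * (b.val + 2 * v.val) =
        2 ^ j * (c.val * b.val) + u.val * b.val + 2 * (u.val * v.val) +
          2 ^ j * (2 * (c.val * v.val)) := by ring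
    rw [e1, pow_add, pow_add, pow_add, pow_mul ω (2 ^ j), pow_mul ω (2 ^ j), hneg, pow_mul ω 2,
      pow_mul (-1 : ℂ) 2]
    fin_cases c <;> fin_cases b <;> simp

theorem word_fft_zmod (j : ℕ) (ω : ℂ) (hω : IsPrimitiveRoot ω (2 ^ j)) :
    Word j (dft ω (ZMod.val : ZMod (2 ^ j) → ℕ)) :=
  word_fft j ω hω (ZMod (2 ^ j))
    ⟨fun u => ⟨u.val, ZMod.val_lt u⟩, fun k => (k.val : ZMod (2 ^ j)), fun u => by simp,
      fun k => by ext; simp [ZMod.val_cast_of_lt k.2]⟩

section zmod

variable {p : ℕ} [NeZero p] {ζ : ℂ}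

theorem pow_val_add (h : ζ ^ p = 1) (u v : ZMod p) :
    ζ ^ (u + v).val = ζ ^ u.val * ζ ^ v.val := by
  rw [ZMod.val_add, ← pow_eq_pow_mod _ h, pow_add]

theorem dft_add (h : ζ ^ p = 1) (s u v : ZMod p) :
    dft ζ ZMod.val s (u + v) = dft ζ ZMod.val s u * dft ζ ZMod.val s v := by
  simp only [dft, Matrix.of_apply, pow_mul]
  exact pow_val_add (by rw [← pow_mul, mul_comm, pow_mul, h, one_pow]) u v

theorem sum_zmod_val (f : ℕ → ℂ) : ∑ u : ZMod p, f u.val = ∑ i ∈ Finset.range p, f i := by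
  obtain ⟨q, rfl⟩ := Nat.exists_eq_succ_of_ne_zero (NeZero.ne p)
  exact Fin.sum_univ_eq_sum_range f (q + 1)

theorem dft_inv_mul (h : IsPrimitiveRoot ζ p) :
    dft ζ⁻¹ (ZMod.val : ZMod p → ℕ) * dft ζ ZMod.val = (p : ℂ) • 1 := by
  have hζ : ζ ≠ 0 := h.ne_zero (NeZero.ne p)
  ext s t
  simp only [dft, Matrix.mul_apply, Matrix.of_apply, Matrix.smul_apply, Matrix.one_apply,
    smul_eq_mul]
  have : ∀ u : ZMod p, ζ⁻¹ ^ (s.val * u.val) * ζ ^ (u.val * t.val) =
      (ζ ^ t.val / ζ ^ s.val) ^ u.val := by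
    intro u
    rw [div_pow, ← pow_mul, ← pow_mul, inv_pow, mul_comm t.val]
    field_simp
  simp only [this]
  rw [sum_zmod_val (fun i => (ζ ^ t.val / ζ ^ s.val) ^ i)]
  by_cases hst : s = t
  · subst hst
    simp [pow_ne_zero _ hζ]
  · have hne : ζ ^ t.val / ζ ^ s.val ≠ 1 := by
      intro h1
      rw [div_eq_one_iff_eq (pow_ne_zero _ hζ)] at h1
      exact hst (ZMod.val_injective p (h.pow_inj (ZMod.val_lt t) (ZMod.val_lt s) h1)).symm
    rw [geom_sum_eq hne, div_pow, ← pow_mul, ← pow_mul, mul_comm _ p, mul_comm _ p, pow_mul,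
      pow_mul, h.pow_eq_one]
    simp [hst]

theorem sel_neg_mul_dft (h : ζ ^ p = 1) :
    sel (fun s : ZMod p => -s) * dft ζ⁻¹ ZMod.val = dft ζ ZMod.val := by
  rw [sel_mul]
  ext s t
  simp only [dft, Matrix.submatrix_apply, Matrix.of_apply, id, pow_mul]
  congr 1
  have := pow_val_add h (-s) s
  rw [neg_add_cancel, ZMod.val_zero, pow_zero] at this
  rw [inv_pow]
  exact (eq_inv_of_mul_eq_one_right this.symm).symm

end zmod

theorem circulant_diag {A : Type} [AddCommGroup A] [Fintype A] [DecidableEq A]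
    (F F' : Matrix A A ℂ) (hF : ∀ s u v, F s (u + v) = F s u * F s v) (hFF : F' * F = 1)
    (c : A → ℂ) : ∃ D : A → ℂ, Matrix.circulant c = F' * diagonal D * F := by
  refine ⟨fun s => ∑ u, c u * F s u, ?_⟩
  have : F * Matrix.circulant c = diagonal (fun s => ∑ u, c u * F s u) * F := by
    ext s v
    rw [Matrix.diagonal_mul, Matrix.mul_apply, Finset.sum_mul,
      ← Equiv.sum_comp (Equiv.addRight v)]
    refine Finset.sum_congr rfl fun u _ => ?_
    simp [Matrix.circulant_apply, hF]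
    ring
  rw [Matrix.mul_assoc, ← this, ← Matrix.mul_assoc, hFF, Matrix.one_mul]

/-- The chirp factorisation of a Fourier matrix through a circulant. -/
theorem bluestein {A κ : Type} [AddCommGroup A] [Fintype A] [DecidableEq A] [Fintype κ]
    [DecidableEq κ] (n : ℕ) (ν : κ → ℕ) (hν : ∀ k, ν k < n) (e : ℤ →+ A)
    (he : ∀ s : ℤ, |s| < 2 * n → e s = 0 → s = 0) {ζ : ℂ} (hζ : ζ ≠ 0) :
    ∃ (d : κ → ℂ) (c : A → ℂ), dft ζ ν = diagonal d * sel (fun k => e (ν k)) *
      Matrix.circulant c * ins (fun k => e (ν k)) * diagonal d := by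
  classical
  obtain ⟨w, hw⟩ := IsAlgClosed.exists_pow_nat_eq ζ (show 0 < 2 by norm_num)
  have hw0 : w ≠ 0 := by rintro rfl; simp at hw; exact hζ hw.symm
  let c : A → ℂ := fun u => if h : ∃ s : ℤ, |s| < n ∧ e s = u then w ^ (-(h.choose ^ 2)) else 0
  have hc : ∀ s : ℤ, |s| < n → c (e s) = w ^ (-(s ^ 2)) := by
    intro s hs
    have h : ∃ s' : ℤ, |s'| < n ∧ e s' = e s := ⟨s, hs, rfl⟩
    have h1 := h.choose_spec
    have h2 : h.choose - s = 0 := he _ (by
      have := abs_sub h.choose s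
      omega) (by rw [map_sub, h1.2, sub_self])
    simp only [c, dif_pos h]
    rw [sub_eq_zero.1 h2]
  refine ⟨fun k => w ^ ((ν k : ℤ) ^ 2), c, ?_⟩
  rw [Matrix.mul_assoc (diagonal _), Matrix.mul_assoc (diagonal _), sel_mul, mul_ins]
  ext j k
  simp only [dft, Matrix.of_apply, Matrix.mul_diagonal, Matrix.diagonal_mul, Matrix.submatrix_apply,
    id, Matrix.circulant_apply, ← map_sub]
  rw [hc _ (by have := hν j; have := hν k; rw [abs_lt]; omega), ← zpow_add₀ hw0, ← zpow_add₀ hw0,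
    ← hw, ← pow_mul, ← zpow_natCast]
  congr 1
  push_cast
  ring

theorem intCast_small {R : ℕ} {n : ℕ} (hR : 2 * n ≤ R) (s : ℤ) (hs : |s| < 2 * n)
    (h : Int.castAddHom (ZMod R) s = 0) : s = 0 := by
  have h1 : (R : ℤ) ∣ s := (ZMod.intCast_zmod_eq_zero_iff_dvd s R).1 h
  exact Int.eq_zero_of_abs_lt_dvd h1 (by omega)

section six

variable {ι : Type} [Fintype ι] [DecidableEq ι] {p : ℕ} [NeZero p]

theorem word_shear_dft (j : ℕ) (hj : 2 * p ≤ 2 ^ j) {x y : ZMod p → ι} {z : ZMod (2 ^ j) → ι}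
    (hx : Function.Injective x) (hy : Function.Injective y) (hz : Function.Injective z)
    (hxy : ∀ i j, x i ≠ y j) (hxz : ∀ i j, x i ≠ z j) (hyz : ∀ i j, y i ≠ z j) {ζ : ℂ}
    (hζ : ζ ≠ 0) (t : ℂ) :
    Word (16 * j + 24) (1 + ins y * (t • dft ζ (ZMod.val : ZMod p → ℕ)) * sel x : Matrix ι ι ℂ) := by
  obtain ⟨d, c, hdc⟩ := bluestein p (ZMod.val : ZMod p → ℕ) ZMod.val_lt
    (Int.castAddHom (ZMod (2 ^ j))) (intCast_small hj) hζ
  set g : ZMod p → ZMod (2 ^ j) := fun k => Int.castAddHom (ZMod (2 ^ j)) (k.val : ℤ) with hg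
  have hginj : Function.Injective g := by
    intro k l hkl
    have := intCast_small hj ((k.val : ℤ) - l.val) (by
      have := ZMod.val_lt k; have := ZMod.val_lt l; rw [abs_lt]; omega)
      (by rw [map_sub]; exact sub_eq_zero.2 hkl)
    exact ZMod.val_injective p (by omega)
  have hω := Complex.isPrimitiveRoot_exp (2 ^ j) (by positivity)
  set ω := Complex.exp (2 * Real.pi * Complex.I / ((2 ^ j : ℕ) : ℂ))
  set F := dft ω (ZMod.val : ZMod (2 ^ j) → ℕ)
  set F' := (((2 ^ j : ℕ) : ℂ)⁻¹) • dft ω⁻¹ (ZMod.val : ZMod (2 ^ j) → ℕ) with hF'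
  have hFF : F' * F = 1 := by
    rw [hF', Matrix.smul_mul, dft_inv_mul hω, smul_smul, inv_mul_cancel₀ (by exact_mod_cast (by positivity : 2 ^ j ≠ 0)),
      one_smul]
  have hFF' : F * F' = 1 := mul_eq_one_comm.1 hFF
  have wF : Word j F := word_fft_zmod j ω hω
  have wF' : Word j F' := by
    rw [hF', Matrix.smul_eq_diagonal_mul]
    exact Word.mono_mul (isMono_diagonal _) (word_fft_zmod j _ hω.inv)
  obtain ⟨D, hD⟩ := circulant_diag F F' (dft_add hω.pow_eq_one) hFF c
  have key : ∀ D : ZMod (2 ^ j) → ℂ, (∀ s, D s ≠ 0) → Word (4 * (j + j) + 12)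
      (1 + ins y * (diagonal (fun k => t * d k) * sel g * (F' * diagonal D * F) * ins g *
        diagonal d) * sel x) := by
    intro D hD
    refine word_shear_through hx hy hz hxy hxz hyz hginj
      ((wF'.mul_mono (isMono_diagonal D)).mul wF)
      ((wF'.mul_mono (isMono_diagonal fun s => (D s)⁻¹)).mul wF) ?_ _ _
    simp only [Matrix.mul_assoc]
    rw [← Matrix.mul_assoc F, hFF', Matrix.one_mul, ← Matrix.mul_assoc (diagonal _),
      Matrix.diagonal_mul_diagonal]
    simp only [inv_mul_cancel₀ (hD _), Matrix.diagonal_one, Matrix.one_mul, hFF]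
  let Db : ZMod (2 ^ j) → ℂ := fun s => if D s = 1 then 2 else 1
  have hb : ∀ s, Db s ≠ 0 := fun s => by simp only [Db]; split_ifs <;> norm_num
  have ha : ∀ s, D s - Db s ≠ 0 := fun s => by
    simp only [Db]
    split_ifs with h
    · rw [h]; norm_num
    · exact sub_ne_zero.2 h
  have := (key _ ha).mul (key _ hb)
  refine Word.le ?_ (le_of_eq (show 4 * (j + j) + 12 + (4 * (j + j) + 12) = _ by ring))
  convert this using 1
  have xy : sel x * ins y = 0 := sel_mul_ins_disj hxy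
  have hsh : ∀ M N : Matrix (ZMod p) (ZMod p) ℂ, (1 + ins y * M * sel x) * (1 + ins y * N * sel x) =
      1 + ins y * (M + N) * sel x := by
    intro M N
    simp only [Matrix.mul_add, Matrix.add_mul, Matrix.one_mul, Matrix.mul_one, Matrix.mul_assoc]
    rw [← Matrix.mul_assoc (sel x), xy]
    simp only [Matrix.zero_mul, Matrix.mul_zero, add_zero]
    abel
  rw [hsh, hdc, hD]
  congr 3
  simp only [← Matrix.add_mul, ← Matrix.mul_add, Matrix.diagonal_add, sub_add_cancel,
    ← Matrix.smul_mul]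
  congr 4
  rw [← Matrix.diagonal_smul]
  rfl

theorem word_pair_dft (j : ℕ) (hj : 2 * p ≤ 2 ^ j) {x y : ZMod p → ι} {z : ZMod (2 ^ j) → ι}
    (hx : Function.Injective x) (hy : Function.Injective y) (hz : Function.Injective z)
    (hxy : ∀ i j, x i ≠ y j) (hxz : ∀ i j, x i ≠ z j) (hyz : ∀ i j, y i ≠ z j) {ζ : ℂ}
    (hζ : IsPrimitiveRoot ζ p) :
    Word (48 * j + 72) (On x (dft ζ ZMod.val) * On y (dft ζ ZMod.val)) := by
  have hζ0 : ζ ≠ 0 := hζ.ne_zero (NeZero.ne p)
  have hp : (p : ℂ) ≠ 0 := by exact_mod_cast NeZero.ne p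
  have h1 := word_shear_dft j hj hx hy hz hxy hxz hyz hζ0 1
  have h2 := word_shear_dft j hj hy hx hz (fun i j => (hxy j i).symm) hyz hxz (inv_ne_zero hζ0)
    (-(p : ℂ)⁻¹)
  have h3 : IsMono (On y ((-(p : ℂ)) • sel (fun s : ZMod p => -s))) := by
    refine IsMono.on hy ?_
    rw [Matrix.smul_eq_diagonal_mul]
    exact (isMono_diagonal _).mul (isMono_sel _)
  have := Word.mono_mul h3 (Word.mono_mul (word_swap hx hy hxy) ((h1.mul h2).mul h1))
  refine Word.le ?_ (le_of_eq (show 16 * j + 24 + (16 * j + 24) + (16 * j + 24) = _ by ring))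
  convert this using 1
  set F := dft ζ (ZMod.val : ZMod p → ℕ)
  set G := (-(p : ℂ)⁻¹) • dft ζ⁻¹ (ZMod.val : ZMod p → ℕ) with hG
  set N := (-(p : ℂ)) • sel (fun s : ZMod p => -s) with hN
  have hGF : G * F = -1 := by
    rw [hG, Matrix.smul_mul, dft_inv_mul hζ, smul_smul, neg_mul, inv_mul_cancel₀ hp, neg_smul,
      one_smul]
  have hFG : F * G = -1 := by
    have : (-G) * F = 1 := by rw [Matrix.neg_mul, hGF, neg_neg]
    have := mul_eq_one_comm.1 this
    rw [← neg_neg (F * G), ← Matrix.mul_neg, this]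
  have hNG : N * G = F := by
    rw [hN, hG, Matrix.smul_mul, Matrix.mul_smul, smul_smul, sel_neg_mul_dft hζ.pow_eq_one]
    simp [hp, F]
  have xy : ∀ M : Matrix (ZMod p) ι ℂ, sel x * (ins y * M) = 0 := fun M => by
    rw [← Matrix.mul_assoc, sel_mul_ins_disj hxy, Matrix.zero_mul]
  have yx : ∀ M : Matrix (ZMod p) ι ℂ, sel y * (ins x * M) = 0 := fun M => by
    rw [← Matrix.mul_assoc, sel_mul_ins_disj (fun i j => (hxy j i).symm), Matrix.zero_mul]
  have xx : ∀ M : Matrix (ZMod p) ι ℂ, sel x * (ins x * M) = M := fun M => by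
    rw [← Matrix.mul_assoc, sel_mul_ins_self hx, Matrix.one_mul]
  have yy : ∀ M : Matrix (ZMod p) ι ℂ, sel y * (ins y * M) = M := fun M => by
    rw [← Matrix.mul_assoc, sel_mul_ins_self hy, Matrix.one_mul]
  have gf : ∀ M : Matrix (ZMod p) ι ℂ, G * (F * M) = -M := fun M => by
    rw [← Matrix.mul_assoc, hGF, Matrix.neg_mul, Matrix.one_mul]
  have fg : ∀ M : Matrix (ZMod p) ι ℂ, F * (G * M) = -M := fun M => by
    rw [← Matrix.mul_assoc, hFG, Matrix.neg_mul, Matrix.one_mul]
  have ng : ∀ M : Matrix (ZMod p) ι ℂ, N * (G * M) = F * M := fun M => by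
    rw [← Matrix.mul_assoc, hNG]
  clear_value F G N
  simp only [On, one_smul, Matrix.mul_add, Matrix.add_mul, Matrix.mul_sub, Matrix.sub_mul,
    Matrix.one_mul, Matrix.mul_one, Matrix.mul_assoc, xy, yx, xx, yy, gf, fg, ng, Matrix.mul_zero,
    Matrix.mul_neg, Matrix.neg_mul]
  abel

theorem on_block {b : Type} [Fintype b] [DecidableEq b] {a : Type} [Fintype a] [DecidableEq a]
    (t : b) (F : Matrix a a ℂ) :
    On (fun k => (k, t)) F = blockDiagonal (fun t' => if t' = t then F else 1) := by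
  have hinj : Function.Injective (fun k : a => (k, t)) := fun k l h => (Prod.ext_iff.1 h).1
  ext ⟨k, s⟩ ⟨l, s'⟩
  by_cases h : s = t
  · subst h
    rw [on_apply_mem hinj]
    by_cases h' : s = s' <;> simp [Matrix.mul_apply, sel, Matrix.blockDiagonal_apply, h']
  · rw [on_apply_not_mem _ (fun k' hk' => h (Prod.ext_iff.1 hk').2.symm)]
    by_cases h' : s = s'
    · subst h'
      simp [Matrix.blockDiagonal_apply, h, Matrix.one_apply]
    · simp [Matrix.blockDiagonal_apply, h']

theorem word_six {ζ : ℂ} (hζ : IsPrimitiveRoot ζ p) :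
    Word (144 * (Nat.log 2 p + 2) + 216)
      (blockDiagonal fun _ : Fin 6 => dft ζ (ZMod.val : ZMod p → ℕ)) := by
  set j := Nat.log 2 p + 2 with hj
  have hj1 : 2 * p ≤ 2 ^ j := by
    have := Nat.lt_pow_succ_log_self (b := 2) (by norm_num) p
    rw [hj, show Nat.log 2 p + 2 = (Nat.log 2 p).succ + 1 by rfl, pow_succ]
    omega
  have hj2 : 2 ^ j ≤ p * 4 := by
    have := Nat.pow_log_le_self 2 (NeZero.ne p)
    rw [hj, pow_add]
    omega
  obtain ⟨e⟩ : Nonempty (ZMod (2 ^ j) ↪ ZMod p × Fin 4) :=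
    Function.Embedding.nonempty_of_card_le (by simpa using hj2)
  have key : ∀ (s t : Fin 6) (g : Fin 4 → Fin 6), s ≠ t → Function.Injective g →
      (∀ i, s ≠ g i) → (∀ i, t ≠ g i) → Word (48 * j + 72)
        (On (fun k => (k, s)) (dft ζ ZMod.val) * On (fun k => (k, t)) (dft ζ ZMod.val) :
          Matrix (ZMod p × Fin 6) (ZMod p × Fin 6) ℂ) := by
    intro s t g hst hg hs ht
    refine word_pair_dft j hj1 (z := fun u => ((e u).1, g (e u).2))
      (fun k l h => (Prod.ext_iff.1 h).1) (fun k l h => (Prod.ext_iff.1 h).1) ?_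
      (fun k l h => hst (Prod.ext_iff.1 h).2) (fun k l h => hs _ (Prod.ext_iff.1 h).2)
      (fun k l h => ht _ (Prod.ext_iff.1 h).2) hζ
    intro u v h
    exact e.injective (Prod.ext (Prod.ext_iff.1 h).1 (hg (Prod.ext_iff.1 h).2))
  have := ((key 0 1 ![2, 3, 4, 5] (by decide) (by decide) (by decide) (by decide)).mul
    (key 2 3 ![0, 1, 4, 5] (by decide) (by decide) (by decide) (by decide))).mul
    (key 4 5 ![0, 1, 2, 3] (by decide) (by decide) (by decide) (by decide))
  refine Word.le ?_ (le_of_eq (show 48 * j + 72 + (48 * j + 72) + (48 * j + 72) = _ by ring))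
  convert this using 1
  simp only [on_block, ← Matrix.blockDiagonal_mul]
  congr 1
  funext t
  fin_cases t <;> simp

end six

end Crest.Agent.R324
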