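import Crest.Agent.R324.Basic

/-! The abstract labelled network: two motifs (forward and backward shear). -/

set_option autoImplicit false

namespace Crest.Agent.R324

open Finset

variable {V : Type} [AddCommGroup V] [Module ℂ V]

theorem R.family {J : Type} [Fintype J] {S T : J → Set V} {c : ℝ} (h : ∀ j, R (S j) c (T j))
    {A : Set V} (h0 : (0 : V) ∈ A) (hS : ∀ j, S j ⊆ A) :
    ∃ B, Steps A (Fintype.card J * c) B ∧ ∀ j, T j ⊆ B := by
  obtain ⟨B, hB, hT⟩ := R.iUnion_const (S := A) (fun j => (h j).mono_left (hS j)) A h0 subset_rfl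
  exact ⟨B, hB, fun j => (Set.subset_iUnion T j).trans hT⟩

theorem R.family' {J : Type} [Fintype J] {T : J → Set V} {c : ℝ} {A : Set V}
    (h : ∀ j, R A c (T j)) (h0 : (0 : V) ∈ A) :
    ∃ B, Steps A (Fintype.card J * c) B ∧ ∀ j, T j ⊆ B :=
  R.family (S := fun _ => A) h h0 fun _ => subset_rfl

/-- The four-vector relation of quadratic forms over the field with two elements. -/
def Rel4 {E Q : Type} [AddCommGroup E] [CommMonoid Q] (c : E → Q) : Prop :=
  ∀ a b d e : E, c a * c b * c d * c e =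
    c (a + b + d) * c (a + b + e) * c (a + d + e) * c (b + d + e)

/-- An abstract system of arrays held in frames. -/
structure Sys (V Arr Q E : Type) [AddCommGroup V] [Module ℂ V] [AddCommGroup Arr] [Module ℂ Arr]
    [CommMonoid Q] [AddCommGroup E] where
  ent : Q → Arr → Set V
  c : E → Q
  κ : ℝ
  N : ℝ
  hκ : 0 ≤ κ
  hN : 0 ≤ N
  call : ∀ z q a, R (ent q a) κ (ent (c z * q) a)
  comb : ∀ (J : Type) (s : Finset J) (co : J → ℂ) (a : J → Arr) (q : Q) (S : Set V),
    (∀ j ∈ s, ent q (a j) ⊆ S) → R S (2 * s.card * N) (ent q (∑ j ∈ s, co j • a j))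
  sq : ∀ z, c z * c z = 1
  rel4 : Rel4 c

/-- `x` is a product of at most `r` of the generators. -/
def Small {E Q : Type} [CommMonoid Q] (c : E → Q) (r : ℕ) (x : Q) : Prop :=
  ∃ s : Multiset E, s.card ≤ r ∧ x = (s.map c).prod

theorem Small.mul {E Q : Type} [CommMonoid Q] {c : E → Q} {r r' : ℕ} {x y : Q}
    (hx : Small c r x) (hy : Small c r' y) : Small c (r + r') (x * y) := by
  obtain ⟨s, hs, rfl⟩ := hx
  obtain ⟨t, ht, rfl⟩ := hy
  exact ⟨s + t, by simp; omega, by simp⟩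

theorem Small.mono {E Q : Type} [CommMonoid Q] {c : E → Q} {r r' : ℕ} {x : Q}
    (hx : Small c r x) (h : r ≤ r') : Small c r' x := by
  obtain ⟨s, hs, rfl⟩ := hx
  exact ⟨s, hs.trans h, rfl⟩

variable {Arr Q E : Type} [AddCommGroup Arr] [Module ℂ Arr] [CommMonoid Q] [AddCommGroup E]

namespace Sys

variable (σ : Sys V Arr Q E)

theorem small_sq {r : ℕ} {x : Q} (hx : Small σ.c r x) : x * x = 1 := by
  obtain ⟨s, -, rfl⟩ := hx
  induction s using Multiset.induction_on with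
  | empty => simp
  | cons z s ih =>
    simp only [Multiset.map_cons, Multiset.prod_cons]
    calc _ = (σ.c z * σ.c z) * ((s.map σ.c).prod * (s.map σ.c).prod) := by ac_rfl
      _ = 1 := by rw [σ.sq, ih, mul_one]

theorem move_aux (s : Multiset E) (q : Q) (a : Arr) :
    R (σ.ent q a) (s.card * σ.κ) (σ.ent ((s.map σ.c).prod * q) a) := by
  induction s using Multiset.induction_on with
  | empty => simpa using R.refl (σ.ent q a)
  | cons z s ih =>
    simp only [Multiset.map_cons, Multiset.prod_cons, Multiset.card_cons, mul_assoc]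
    refine (ih.trans (σ.call z _ a)).mono_cost (le_of_eq ?_)
    push_cast; ring

theorem move {r : ℕ} {x q q' : Q} (hx : Small σ.c r x) (h : q * x = q') (a : Arr) :
    R (σ.ent q a) (r * σ.κ) (σ.ent q' a) := by
  obtain ⟨s, hs, rfl⟩ := hx
  subst h
  rw [mul_comm q]
  refine (σ.move_aux s q a).mono_cost ?_
  exact mul_le_mul_of_nonneg_right (by exact_mod_cast hs) σ.hκ

theorem add' {q : Q} {a b : Arr} {S : Set V} (ha : σ.ent q a ⊆ S) (hb : σ.ent q b ⊆ S) :
    R S (4 * σ.N) (σ.ent q (a + b)) := by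
  have := σ.comb Bool Finset.univ (fun _ => 1) (fun t => if t then a else b) q S (by
    intro j _; cases j <;> simpa)
  simp only [Fintype.univ_bool, one_smul] at this
  norm_num at this
  simpa using this

theorem sub' {q : Q} {a b : Arr} {S : Set V} (ha : σ.ent q a ⊆ S) (hb : σ.ent q b ⊆ S) :
    R S (4 * σ.N) (σ.ent q (a - b)) := by
  have := σ.comb Bool Finset.univ (fun t => if t then 1 else -1) (fun t => if t then a else b) q S
    (by intro j _; cases j <;> simpa)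
  simp only [Fintype.univ_bool] at this
  norm_num at this
  simpa [sub_eq_add_neg] using this

theorem comb' {J : Type} [Fintype J] (s : Finset J) (co : J → ℂ) (a : J → Arr) (q : Q)
    (S : Set V) (h : ∀ j ∈ s, σ.ent q (a j) ⊆ S) :
    R S (2 * Fintype.card J * σ.N) (σ.ent q (∑ j ∈ s, co j • a j)) := by
  refine (σ.comb J s co a q S h).mono_cost ?_
  have : (s.card : ℝ) ≤ Fintype.card J := by exact_mod_cast s.card_le_univ
  have := σ.hN
  gcongr

end Sys

/-- The scalar data of the motif: the identity matrix on `Tr` is a low-rank matrix through `Cn`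
plus a correction supported on the pairs `Pr`. -/
structure Design (Tr Pr Cn : Type) [Fintype Tr] [Fintype Pr] [Fintype Cn] [DecidableEq Tr] where
  tgt : Pr → Tr
  src : Pr → Tr
  co : Pr → ℂ
  gat : Cn → Tr → ℂ
  sca : Tr → Cn → ℂ
  ident : ∀ S T : Tr, ∑ i, sca S i * gat i T +
    ∑ p ∈ Finset.univ.filter (fun p => tgt p = S), (if src p = T then co p else 0) =
      if S = T then 1 else 0

variable {Tr Pr Cn : Type} [Fintype Tr] [Fintype Pr] [Fintype Cn] [DecidableEq Tr]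

theorem Design.ident' (δ : Design Tr Pr Cn) (x : Tr → Arr) (S : Tr) :
    ∑ i, δ.sca S i • (∑ T, δ.gat i T • x T) +
      ∑ p ∈ Finset.univ.filter (fun p => δ.tgt p = S), δ.co p • x (δ.src p) = x S := by
  have h1 : ∑ i, δ.sca S i • (∑ T, δ.gat i T • x T) =
      ∑ T, (∑ i, δ.sca S i * δ.gat i T) • x T := by
    simp only [Finset.smul_sum, Finset.sum_smul, mul_smul]
    exact Finset.sum_comm
  have h2 : ∑ p ∈ Finset.univ.filter (fun p => δ.tgt p = S), δ.co p • x (δ.src p) =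
      ∑ T, (∑ p ∈ Finset.univ.filter (fun p => δ.tgt p = S),
        (if δ.src p = T then δ.co p else 0)) • x T := by
    simp only [Finset.sum_smul]
    rw [Finset.sum_comm]
    refine Finset.sum_congr rfl fun p _ => ?_
    simp [ite_smul]
  rw [h1, h2, ← Finset.sum_add_distrib]
  simp only [← add_smul, δ.ident]
  simp [ite_smul]

/-- number of calls in one motif -/
def mcalls (Tr Pr Cn : Type) [Fintype Tr] [Fintype Pr] [Fintype Cn] (r0 r1 r2 : ℕ) : ℝ :=
  2 * Fintype.card Tr * r1 + Fintype.card Cn * r0 + Fintype.card Pr * (r2 + 2)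

/-- number of array gates in one motif -/
def mgates (Tr Pr Cn : Type) [Fintype Tr] [Fintype Pr] [Fintype Cn] : ℝ :=
  4 * Fintype.card Cn * Fintype.card Tr + 4 * Fintype.card Tr * Fintype.card Pr +
    12 * Fintype.card Tr + 8 * Fintype.card Pr

theorem motifA (σ : Sys V Arr Q E) (δ : Design Tr Pr Cn) (r0 r1 r2 : ℕ) (D Φ : Q) (ct : Tr → Q)
    (hct : ∀ T, Small σ.c 1 (ct T)) (hΦ : Small σ.c r0 Φ) (h1 : ∀ T, Small σ.c r1 (Φ * ct T))
    (h2 : ∀ p, Small σ.c r2 (Φ * ct (δ.tgt p) * ct (δ.src p)))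
    (x y : Tr → Arr) (a : Pr → Arr) :
    R ((⋃ T, σ.ent (D * ct T) (x T)) ∪ (⋃ S, σ.ent D (y S)) ∪ (⋃ p, σ.ent D (a p)))
      (mcalls Tr Pr Cn r0 r1 r2 * σ.κ + mgates Tr Pr Cn * σ.N)
      ((⋃ T, σ.ent (D * Φ) (x T)) ∪ (⋃ S, σ.ent (D * Φ * ct S) (y S + x S)) ∪
        (⋃ p, σ.ent (D * Φ) (a p))) := by
  intro A0 z0 hin
  simp only [Set.union_subset_iff, Set.iUnion_subset_iff] at hin ⊢
  obtain ⟨⟨hx, hy⟩, ha⟩ := hin
  have sq : ∀ T, ct T * ct T = 1 := fun T => σ.small_sq (hct T)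
  have sqΦ : Φ * Φ = 1 := σ.small_sq hΦ
  -- 1. sources to the top frame
  obtain ⟨A1, s1, hx1⟩ := R.family (fun T => σ.move (q' := D * Φ) (h1 T) (by
    calc D * ct T * (Φ * ct T) = D * Φ * (ct T * ct T) := by ac_rfl
      _ = _ := by rw [sq, mul_one]) (x T)) z0 hx
  have u1 := s1.subset
  -- 2. gather in the top frame
  obtain ⟨A2, s2, hg2⟩ := R.family' (fun i => σ.comb' Finset.univ (δ.gat i) x (D * Φ) A1
    (fun T _ => hx1 T)) (u1 z0)
  have u2 := s2.subset
  -- 3. central wires down to the bottom frame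
  obtain ⟨A3, s3, hg3⟩ := R.family (fun i => σ.move (q' := D) hΦ (by
    rw [mul_assoc, sqΦ, mul_one]) (∑ T, δ.gat i T • x T)) (u2 (u1 z0)) hg2
  have u3 := s3.subset
  have z3 := u3 (u2 (u1 z0))
  -- 4. scatter, and the early side sums
  obtain ⟨A4, s4, ht4⟩ := R.family' (fun S => σ.comb' Finset.univ (δ.sca S)
    (fun i => ∑ T, δ.gat i T • x T) D A3 (fun i _ => hg3 i)) z3
  have u4 := s4.subset
  obtain ⟨A5, s5, hu5⟩ := R.family' (fun S => σ.comb'
    (Finset.univ.filter (fun p => δ.tgt p = S)) δ.co a D A4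
    (fun p _ => (ha p).trans (u1.trans (u2.trans (u3.trans u4))))) (u4 z3)
  have u5 := s5.subset
  have z5 := u5 (u4 z3)
  obtain ⟨A6, s6, hy6⟩ := R.family' (fun S => σ.sub'
    ((hy S).trans (u1.trans (u2.trans (u3.trans (u4.trans u5))))) (hu5 S)) z5
  have u6 := s6.subset
  obtain ⟨A7, s7, hy7⟩ := R.family' (fun S => σ.add' (hy6 S) ((ht4 S).trans (u5.trans u6)))
    (u6 z5)
  have u7 := s7.subset
  have z7 := u7 (u6 z5)
  have u07 : A0 ⊆ A7 := u1.trans (u2.trans (u3.trans (u4.trans (u5.trans (u6.trans u7)))))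
  have u17 : A1 ⊆ A7 := u2.trans (u3.trans (u4.trans (u5.trans (u6.trans u7))))
  -- 5. targets up
  obtain ⟨A8, s8, hy8⟩ := R.family (fun S => σ.move (q' := D * Φ * ct S) (h1 S)
    (mul_assoc _ _ _).symm _) z7 hy7
  have u8 := s8.subset
  -- 6. side wires
  obtain ⟨A9, s9, ha9⟩ := R.family (fun p => σ.move (hct (δ.src p)) rfl (a p)) (u8 z7)
    (fun p => (ha p).trans (u07.trans u8))
  have u9 := s9.subset
  have z9 := u9 (u8 z7)
  obtain ⟨B0, t0, hb0⟩ := R.family' (fun p => σ.add' (ha9 p)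
    ((hx (δ.src p)).trans (u07.trans (u8.trans u9)))) z9
  have v0 := t0.subset
  obtain ⟨B1, t1, hb1⟩ := R.family (fun p => σ.move (q' := D * Φ * ct (δ.tgt p)) (h2 p) (by
    calc D * ct (δ.src p) * (Φ * ct (δ.tgt p) * ct (δ.src p))
        = D * Φ * ct (δ.tgt p) * (ct (δ.src p) * ct (δ.src p)) := by ac_rfl
      _ = _ := by rw [sq, mul_one]) _) (v0 z9) hb0
  have v1 := t1.subset
  have w1 := v1 (v0 z9)
  obtain ⟨B2, t2, hb2⟩ := R.family' (fun S => σ.comb'
    (Finset.univ.filter (fun p => δ.tgt p = S)) δ.co (fun p => a p + x (δ.src p))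
    (D * Φ * ct S) B1 (fun p hp => by
      have := hb1 p
      rwa [(Finset.mem_filter.1 hp).2] at this)) w1
  have v2 := t2.subset
  obtain ⟨B3, t3, hb3⟩ := R.family' (fun S => σ.add'
    ((hy8 S).trans (u9.trans (v0.trans (v1.trans v2)))) (hb2 S)) (v2 w1)
  have v3 := t3.subset
  have w3 := v3 (v2 w1)
  obtain ⟨B4, t4, hb4⟩ := R.family (fun p => σ.move (q' := D * Φ) (hct (δ.tgt p)) (by
    rw [mul_assoc, sq, mul_one]) _) w3 (fun p => (hb1 p).trans (v2.trans v3))
  have v4 := t4.subset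
  have u14 : A1 ⊆ B4 :=
    u17.trans (u8.trans (u9.trans (v0.trans (v1.trans (v2.trans (v3.trans v4))))))
  obtain ⟨B5, t5, hb5⟩ := R.family' (fun p => σ.sub' (hb4 p) ((hx1 (δ.src p)).trans u14)) (v4 w3)
  have v5 := t5.subset
  refine ⟨B5, ?_, ⟨fun T => (hx1 T).trans (u14.trans v5), fun S => ?_⟩, fun p => ?_⟩
  · refine ((((((((((((((s1.trans s2).trans s3).trans s4).trans s5).trans s6).trans s7).trans
      s8).trans s9).trans t0).trans t1).trans t2).trans t3).trans t4).trans t5).mono (le_of_eq ?_)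
    simp only [mcalls, mgates]
    push_cast
    ring
  · have := (hb3 S).trans (v4.trans v5)
    refine subset_of_eq_of_subset (congrArg (σ.ent _) ?_) this
    rw [← δ.ident' x S]
    simp only [smul_add, Finset.sum_add_distrib]
    abel
  · simpa using hb5 p

theorem motifB (σ : Sys V Arr Q E) (δ : Design Tr Pr Cn) (r0 r1 r2 : ℕ) (D Φ : Q) (ct : Tr → Q)
    (hct : ∀ T, Small σ.c 1 (ct T)) (hΦ : Small σ.c r0 Φ) (h1 : ∀ T, Small σ.c r1 (Φ * ct T))
    (h2 : ∀ p, Small σ.c r2 (Φ * ct (δ.tgt p) * ct (δ.src p)))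
    (x y : Tr → Arr) (a : Pr → Arr) :
    R ((⋃ S, σ.ent (D * ct S) (x S)) ∪ (⋃ T, σ.ent D (y T)) ∪ (⋃ p, σ.ent D (a p)))
      (mcalls Tr Pr Cn r0 r1 r2 * σ.κ + mgates Tr Pr Cn * σ.N)
      ((⋃ S, σ.ent (D * Φ) (x S - y S)) ∪ (⋃ T, σ.ent (D * Φ * ct T) (y T)) ∪
        (⋃ p, σ.ent (D * Φ) (a p))) := by
  intro A0 z0 hin
  simp only [Set.union_subset_iff, Set.iUnion_subset_iff] at hin ⊢
  obtain ⟨⟨hx, hy⟩, ha⟩ := hin
  have sq : ∀ T, ct T * ct T = 1 := fun T => σ.small_sq (hct T)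
  -- 1. copy the sources into the side wires, bottom frame
  obtain ⟨A1, s1, ha1⟩ := R.family' (fun p => σ.add' (ha p) (hy (δ.src p))) z0
  have u1 := s1.subset
  obtain ⟨A2, s2, ha2⟩ := R.family (fun p => σ.move (hct (δ.tgt p)) rfl _) (u1 z0) ha1
  have u2 := s2.subset
  have z2 := u2 (u1 z0)
  obtain ⟨A3, s3, hu3⟩ := R.family' (fun S => σ.comb'
    (Finset.univ.filter (fun p => δ.tgt p = S)) δ.co (fun p => a p + y (δ.src p))
    (D * ct S) A2 (fun p hp => by
      have := ha2 p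
      rwa [(Finset.mem_filter.1 hp).2] at this)) z2
  have u3 := s3.subset
  obtain ⟨A4, s4, hx4⟩ := R.family' (fun S => σ.sub'
    ((hx S).trans (u1.trans (u2.trans u3))) (hu3 S)) (u3 z2)
  have u4 := s4.subset
  have z4 := u4 (u3 z2)
  obtain ⟨A5, s5, hx5⟩ := R.family (fun T => σ.move (q' := D * Φ) (h1 T) (by
    calc D * ct T * (Φ * ct T) = D * Φ * (ct T * ct T) := by ac_rfl
      _ = _ := by rw [sq, mul_one]) _) z4 hx4
  have u5 := s5.subset
  have u05 : A0 ⊆ A5 := u1.trans (u2.trans (u3.trans (u4.trans u5)))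
  -- 2. central wires
  obtain ⟨A6, s6, hg6⟩ := R.family' (fun i => σ.comb' Finset.univ (δ.gat i) y D A5
    (fun T _ => (hy T).trans u05)) (u5 z4)
  have u6 := s6.subset
  have z6 := u6 (u5 z4)
  obtain ⟨A7, s7, hg7⟩ := R.family (fun i => σ.move hΦ rfl (∑ T, δ.gat i T • y T)) z6 hg6
  have u7 := s7.subset
  obtain ⟨A8, s8, ht8⟩ := R.family' (fun S => σ.comb' Finset.univ (δ.sca S)
    (fun i => ∑ T, δ.gat i T • y T) (D * Φ) A7 (fun i _ => hg7 i)) (u7 z6)
  have u8 := s8.subset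
  have z8 := u8 (u7 z6)
  obtain ⟨A9, s9, hx9⟩ := R.family' (fun S => σ.sub'
    ((hx5 S).trans (u6.trans (u7.trans u8))) (ht8 S)) z8
  have u9 := s9.subset
  have u59 : A5 ⊆ A9 := u6.trans (u7.trans (u8.trans u9))
  -- 3. clean the side wires
  obtain ⟨B0, t0, hb0⟩ := R.family (fun p => σ.move (q' := D * Φ * ct (δ.src p)) (h2 p) (by
    calc D * ct (δ.tgt p) * (Φ * ct (δ.tgt p) * ct (δ.src p))
        = D * Φ * ct (δ.src p) * (ct (δ.tgt p) * ct (δ.tgt p)) := by ac_rfl
      _ = _ := by rw [sq, mul_one]) _) (u9 z8)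
    (fun p => (ha2 p).trans (u3.trans (u4.trans (u5.trans u59))))
  have v0 := t0.subset
  have w0 := v0 (u9 z8)
  obtain ⟨B1, t1, hy1⟩ := R.family (fun S => σ.move (q' := D * Φ * ct S) (h1 S)
    (mul_assoc _ _ _).symm (y S)) w0 (fun S => (hy S).trans (u05.trans (u59.trans v0)))
  have v1 := t1.subset
  obtain ⟨B2, t2, hb2⟩ := R.family' (fun p => σ.sub' ((hb0 p).trans v1) (hy1 (δ.src p))) (v1 w0)
  have v2 := t2.subset
  have w2 := v2 (v1 w0)
  obtain ⟨B3, t3, hb3⟩ := R.family (fun p => σ.move (q' := D * Φ) (hct (δ.src p)) (by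
    rw [mul_assoc, sq, mul_one]) _) w2 hb2
  have v3 := t3.subset
  simp only [add_sub_cancel_right] at hb3
  obtain ⟨B4, t4, hb4⟩ := R.family' (fun S => σ.comb'
    (Finset.univ.filter (fun p => δ.tgt p = S)) δ.co a (D * Φ) B3 (fun p _ => hb3 p)) (v3 w2)
  have v4 := t4.subset
  obtain ⟨B5, t5, hb5⟩ := R.family' (fun S => σ.add'
    ((hx9 S).trans (v0.trans (v1.trans (v2.trans (v3.trans v4))))) (hb4 S)) (v4 (v3 w2))
  have v5 := t5.subset
  refine ⟨B5, ?_, ⟨fun S => ?_, fun T => (hy1 T).trans (v2.trans (v3.trans (v4.trans v5)))⟩,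
    fun p => (hb3 p).trans (v4.trans v5)⟩
  · refine ((((((((((((((s1.trans s2).trans s3).trans s4).trans s5).trans s6).trans s7).trans
      s8).trans s9).trans t0).trans t1).trans t2).trans t3).trans t4).trans t5).mono (le_of_eq ?_)
    simp only [mcalls, mgates]
    push_cast
    ring
  · convert hb5 S using 2
    rw [← δ.ident' y S]
    simp only [smul_add, Finset.sum_add_distrib]
    abel

end Crest.Agent.R324
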