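import Crest.Agent.R324.Triples

/-! The two-stage network on pairs of triples. -/

set_option autoImplicit false
set_option linter.unusedSectionVars false

namespace Crest.Agent.R324

open Finset

variable {V : Type} [AddCommGroup V] [Module ℂ V]
variable {Arr Q E : Type} [AddCommGroup Arr] [Module ℂ Arr] [CommMonoid Q] [AddCommGroup E]
variable {ι : Type} [Fintype ι] [DecidableEq ι]

theorem Rel4.comp {F : Type} [AddCommGroup F] {c : E → Q} (hc : Rel4 c) (ψ : F →+ E) :
    Rel4 (fun x => c (ψ x)) := by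
  intro a b d e
  simp only [map_add]
  exact hc _ _ _ _

theorem Rel4.prod {J : Type} (s : Finset J) {c : J → E → Q} (hc : ∀ j, Rel4 (c j)) :
    Rel4 (fun x => ∏ j ∈ s, c j x) := by
  intro a b d e
  simp only [← Finset.prod_mul_distrib]
  exact Finset.prod_congr rfl fun j _ => hc j _ _ _ _

theorem small_one (c : E → Q) (z : E) : Small c 1 (c z) := ⟨{z}, by simp, by simp⟩

theorem small_map {F : Type} (c : E → Q) (s : Multiset F) (ψ : F → E) :
    Small c s.card (s.map (fun x => c (ψ x))).prod :=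
  ⟨s.map ψ, by simp, by simp [Multiset.map_map]⟩

theorem small_prod {J : Type} [Fintype J] (c : E → Q) (ψ : J → E) :
    Small c (Fintype.card J) (∏ j, c (ψ j)) :=
  small_map c Finset.univ.val ψ

theorem small_map_prod {F : Type} (c : E → Q) (s : Multiset F) (r : ℕ) (f : F → Q)
    (hf : ∀ x, Small c r (f x)) : Small c (s.card * r) (s.map f).prod := by
  induction s using Multiset.induction_on with
  | empty => exact ⟨0, by simp, by simp⟩
  | cons x s ih =>
    simp only [Multiset.map_cons, Multiset.prod_cons, Multiset.card_cons]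
    exact ((hf x).mul ih).mono (le_of_eq (by ring))

/-- The wires of the network. -/
abbrev Wire (ι : Type) [Fintype ι] [DecidableEq ι] :=
  (Trip ι × Trip ι) ⊕ (Trip ι × Trip ι) ⊕ (Trip ι × EvPair ι) ⊕ (Trip ι × EvPair ι)

/-- The saving of the network. -/
def saving (ι : Type) [Fintype ι] [DecidableEq ι] : ℝ :=
  (Fintype.card (Trip ι) : ℝ) ^ 2 -
    2 * Fintype.card (Trip ι) * (Fintype.card ι + 1) * Fintype.card ι

/-- The number of array gates of the network. -/
def ngates (ι : Type) [Fintype ι] [DecidableEq ι] : ℝ :=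
  2 * Fintype.card (Trip ι) * mgates (Trip ι) (EvPair ι) (Option ι) +
    6 * (Fintype.card (Trip ι) : ℝ) ^ 2

theorem net (σ : Sys V Arr Q E) (h8 : 8 ≤ Fintype.card ι)
    (hinv : ∀ z a, ∃ x, ∀ q, σ.ent (q * σ.c z) x = σ.ent q a)
    (tn : (ι → ZMod 2) →+ (ι → ZMod 2) →+ E) (a : Wire ι → Arr) :
    R (⋃ w, σ.ent 1 (a w))
      ((Fintype.card (Wire ι) * (Fintype.card ι : ℝ) ^ 2 - saving ι) * σ.κ + ngates ι * σ.N)
      (⋃ w, σ.ent (∏ i, ∏ j, σ.c (tn (bv i) (bv j))) (a w)) := by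
  obtain ⟨k, hk⟩ : ∃ k, Fintype.card ι = k + 2 := ⟨Fintype.card ι - 2, by omega⟩
  choose s hs hsc using fun t : Trip ι => one_line Q (by omega) t.1 t.2
  have hs' : ∀ t, (s t).card = k + 1 := fun t => by have := hs t; omega
  choose s2 hs2 hs2c using fun p : EvPair ι =>
    two_lines Q h8 p.1.1.1 p.1.2.1 p.1.1.2 p.1.2.2 p.2
  have hs2' : ∀ p, (s2 p).card = k := fun p => by have := hs2 p; omega
  set Full : Q := ∏ i, ∏ j, σ.c (tn (bv i) (bv j)) with hFull
  let L : Trip ι → Trip ι → Q := fun t1 t2 => σ.c (tn (ind t1.1) (ind t2.1))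
  let P1 : Trip ι → Q := fun t2 => ∏ i, σ.c (tn (bv i) (ind t2.1))
  let P2 : Trip ι → Q := fun t1 => ∏ j, σ.c (tn (ind t1.1) (bv j))
  let U : Trip ι → Trip ι → Q := fun t1 t2 => ((s t1).map fun x => σ.c (tn x (ind t2.1))).prod
  let K : Trip ι → Trip ι → Q := fun t1 t2 =>
    ((s t1).map fun x => ((s t2).map fun y => σ.c (tn x y)).prod).prod
  let D1 : Trip ι → Q := fun t2 => ((s t2).map fun y => ∏ i, σ.c (tn (bv i) y)).prod
  let D2 : Trip ι → Q := fun t1 => ((s t1).map fun x => ∏ j, σ.c (tn x (bv j))).prod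
  have rl : ∀ y, Rel4 (fun x => σ.c (tn x y)) := fun y => σ.rel4.comp (tn.flip y)
  have rr : ∀ x, Rel4 (fun y => σ.c (tn x y)) := fun x => σ.rel4.comp (tn x)
  have hL : ∀ t1 t2, Small σ.c 1 (L t1 t2) := fun t1 t2 => small_one _ _
  have sqL : ∀ t1 t2, L t1 t2 * L t1 t2 = 1 := fun t1 t2 => σ.sq _
  have hP1 : ∀ t, Small σ.c (k + 2) (P1 t) := fun t => hk ▸ small_prod _ _
  have hP2 : ∀ t, Small σ.c (k + 2) (P2 t) := fun t => hk ▸ small_prod _ _
  have f1 : ∀ t1 t2, P1 t2 = L t1 t2 * U t1 t2 := fun t1 t2 => hsc t1 _ (rl _)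
  have f1' : ∀ t1 t2, P1 t2 * L t1 t2 = U t1 t2 := fun t1 t2 => by
    rw [f1 t1 t2, mul_right_comm, sqL, one_mul]
  have h11 : ∀ t2 t1, Small σ.c (k + 1) (P1 t2 * L t1 t2) := fun t2 t1 => by
    rw [f1', ← hs' t1]; exact small_map _ _ _
  have h12 : ∀ t1 t2, Small σ.c (k + 1) (P2 t1 * L t1 t2) := fun t1 t2 => by
    have : P2 t1 = L t1 t2 * ((s t2).map fun y => σ.c (tn (ind t1.1) y)).prod := hsc t2 _ (rr _)
    rw [this, mul_right_comm, sqL, one_mul, ← hs' t2]; exact small_map _ _ _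
  have h21 : ∀ t2 (p : EvPair ι), Small σ.c k (P1 t2 * L p.1.1 t2 * L p.1.2 t2) := fun t2 p => by
    have : P1 t2 = L p.1.1 t2 * L p.1.2 t2 *
      ((s2 p).map fun x => σ.c (tn x (ind t2.1))).prod := hs2c p _ (rl _)
    rw [this]
    have e : ∀ a b c : Q, a * a = 1 → b * b = 1 → a * b * c * a * b = c := by
      intro a b c ha hb
      calc _ = (a * a) * (b * b) * c := by ac_rfl
        _ = c := by rw [ha, hb, one_mul, one_mul]
    rw [e _ _ _ (sqL _ _) (sqL _ _), ← hs2' p]; exact small_map _ _ _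
  have h22 : ∀ t1 (p : EvPair ι), Small σ.c k (P2 t1 * L t1 p.1.1 * L t1 p.1.2) := fun t1 p => by
    have : P2 t1 = L t1 p.1.1 * L t1 p.1.2 *
      ((s2 p).map fun y => σ.c (tn (ind t1.1) y)).prod := hs2c p _ (rr _)
    rw [this]
    have e : ∀ a b c : Q, a * a = 1 → b * b = 1 → a * b * c * a * b = c := by
      intro a b c ha hb
      calc _ = (a * a) * (b * b) * c := by ac_rfl
        _ = c := by rw [ha, hb, one_mul, one_mul]
    rw [e _ _ _ (sqL _ _) (sqL _ _), ← hs2' p]; exact small_map _ _ _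
  have f3 : ∀ t1, D2 t1 * P2 t1 = Full := fun t1 => by
    rw [mul_comm]
    exact (hsc t1 (fun x => ∏ j, σ.c (tn x (bv j))) (Rel4.prod _ fun j => rl _)).symm
  have f5 : ∀ t2, 1 * P1 t2 * D1 t2 = Full := fun t2 => by
    rw [one_mul, hFull, Finset.prod_comm]
    exact (hsc t2 (fun y => ∏ i, σ.c (tn (bv i) y)) (Rel4.prod _ fun j => rr _)).symm
  have f4 : ∀ t1 t2, D2 t1 = U t1 t2 * K t1 t2 := fun t1 t2 => by
    simp only [D2, U, K, ← Multiset.prod_map_mul]
    congr 1
    exact Multiset.map_congr rfl fun x _ => hsc t2 _ (rr x)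
  have hD1 : ∀ t, Small σ.c ((k + 1) * (k + 2)) (D1 t) := fun t => by
    rw [← hs' t, ← hk]; exact small_map_prod _ _ _ _ fun y => small_prod _ _
  have hD2 : ∀ t, Small σ.c ((k + 1) * (k + 2)) (D2 t) := fun t => by
    rw [← hs' t, ← hk]; exact small_map_prod _ _ _ _ fun y => small_prod _ _
  have hK : ∀ t1 t2, Small σ.c ((k + 1) * (k + 1)) (K t1 t2) := fun t1 t2 => by
    have := small_map_prod σ.c (s t1) (s t2).card
      (fun x => ((s t2).map fun y => σ.c (tn x y)).prod) fun x => small_map _ _ _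
    rwa [hs', hs'] at this
  -- the data
  choose x hx using fun t : Trip ι × Trip ι =>
    hinv (tn (ind t.1.1) (ind t.2.1)) (a (Sum.inl t))
  let y : Trip ι × Trip ι → Arr := fun t => a (Sum.inr (Sum.inl t))
  let a1 : Trip ι × EvPair ι → Arr := fun t => a (Sum.inr (Sum.inr (Sum.inl t)))
  let a2 : Trip ι × EvPair ι → Arr := fun t => a (Sum.inr (Sum.inr (Sum.inr t)))
  intro A0 z0 hin
  simp only [Set.iUnion_subset_iff] at hin ⊢
  -- stage one
  obtain ⟨A1, s1, o1⟩ := R.family (fun t2 => motifA σ (tripDesign ι) (k + 2) (k + 1) k 1 (P1 t2)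
    (fun T => L T t2) (fun T => hL T t2) (hP1 t2) (h11 t2) (h21 t2) (fun T => x (T, t2))
    (fun T => y (T, t2)) (fun p => a1 (t2, p))) z0 (fun t2 => by
      simp only [Set.union_subset_iff, Set.iUnion_subset_iff]
      refine ⟨⟨fun T => ?_, fun T => hin _⟩, fun p => hin _⟩
      rw [hx (T, t2) 1]
      exact hin _)
  simp only [Set.union_subset_iff, Set.iUnion_subset_iff] at o1
  have u1 := s1.subset
  obtain ⟨A2, s2', o2⟩ := R.family (fun t : Trip ι × EvPair ι =>
    σ.move (hD1 t.1) (f5 t.1) (a1 t)) (u1 z0) (fun t => (o1 t.1).2 t.2)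
  have u2 := s2'.subset
  have z2 := u2 (u1 z0)
  obtain ⟨A3, s3, o3⟩ := R.family (fun t : Trip ι × Trip ι =>
    σ.move (q := 1 * P1 t.2) (q' := D2 t.1 * L t.1 t.2) (hK t.1 t.2) (by
      rw [one_mul, f1 t.1 t.2, f4 t.1 t.2]; ac_rfl) (x t)) z2
      (fun t => ((o1 t.2).1.1 t.1).trans u2)
  have u3 := s3.subset
  obtain ⟨A4, s4, o4⟩ := R.family (fun t : Trip ι × Trip ι =>
    σ.move (q := 1 * P1 t.2 * L t.1 t.2) (q' := D2 t.1) (hK t.1 t.2) (by
      rw [one_mul, f1', f4 t.1 t.2]) (y t + x t)) (u3 z2)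
      (fun t => ((o1 t.2).1.2 t.1).trans (u2.trans u3))
  have u4 := s4.subset
  have z4 := u4 (u3 z2)
  obtain ⟨A5, s5, o5⟩ := R.family (fun t : Trip ι × EvPair ι =>
    σ.move (hD2 t.1) (one_mul _) (a2 t)) z4
    (fun t => (hin _).trans (u1.trans (u2.trans (u3.trans u4))))
  have u5 := s5.subset
  -- stage two
  obtain ⟨A6, s6, o6⟩ := R.family (fun t1 => motifB σ (tripDesign ι) (k + 2) (k + 1) k (D2 t1)
    (P2 t1) (fun T => L t1 T) (fun T => hL t1 T) (hP2 t1) (h12 t1) (h22 t1) (fun T => x (t1, T))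
    (fun T => y (t1, T) + x (t1, T)) (fun p => a2 (t1, p))) (u5 z4) (fun t1 => by
      simp only [Set.union_subset_iff, Set.iUnion_subset_iff]
      exact ⟨⟨fun T => (o3 (t1, T)).trans (u4.trans u5), fun T => (o4 (t1, T)).trans u5⟩,
        fun p => o5 (t1, p)⟩)
  simp only [Set.union_subset_iff, Set.iUnion_subset_iff, f3] at o6
  have u6 := s6.subset
  have z6 := u6 (u5 z4)
  obtain ⟨A7, s7, o7⟩ := R.family' (fun t : Trip ι × Trip ι => σ.comb' (J := Unit) Finset.univ
    (fun _ => -1) (fun _ => x t - (y t + x t)) Full A6 (fun _ _ => (o6 t.1).1.1 t.2)) z6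
  have u7 := s7.subset
  have o7' : ∀ t, σ.ent Full (y t) ⊆ A7 := fun t => by simpa using o7 t
  obtain ⟨A8, s8, o8⟩ := R.family (fun t : Trip ι × Trip ι =>
    σ.move (hL t.1 t.2) rfl (y t)) (u7 z6) o7'
  have u8 := s8.subset
  obtain ⟨A9, s9, o9⟩ := R.family' (fun t : Trip ι × Trip ι =>
    σ.sub' (((o6 t.1).1.2 t.2).trans (u7.trans u8)) (o8 t)) (u8 (u7 z6))
  have u9 := s9.subset
  refine ⟨A9, ?_, ?_⟩
  · refine ((((((((s1.trans s2').trans s3).trans s4).trans s5).trans s6).trans s7).trans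
      s8).trans s9).mono (le_of_eq ?_)
    simp only [mcalls, saving, ngates, Fintype.card_sum, Fintype.card_prod, Fintype.card_option,
      hk, Fintype.card_unit]
    push_cast
    ring
  · rintro (t | t | t | t)
    · have := o9 t
      simp only [add_sub_cancel_left] at this
      rw [← hx t]
      exact this
    · exact (o7' t).trans (u8.trans u9)
    · exact (o2 t).trans (u3.trans (u4.trans (u5.trans (u6.trans (u7.trans (u8.trans u9))))))
    · exact ((o6 t.1).2 t.2).trans (u7.trans (u8.trans u9))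

end Crest.Agent.R324
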