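import Crest.Agent.R324.Net
import Crest.Agent.R324.Act

/-! The recursion for tensor powers of the square root of the swap. -/

set_option autoImplicit false
set_option linter.unusedSectionVars false

namespace Crest.Agent.R324

open Finset

variable {V : Type} [AddCommGroup V] [Module ℂ V]

/-- Every product of `L` independent square roots of translations costs at most `a` gates per
array entry. -/
def PP (V : Type) [AddCommGroup V] [Module ℂ V] (L : ℕ) (a : ℝ) : Prop :=
  ∀ (G : Type) [AddCommGroup G] [Module (ZMod 2) G] [Fintype G] (ι : Type) [Fintype ι]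
    (v : ι → G), Fintype.card ι = L → LinearIndependent (ZMod 2) v → ∀ x : G → V,
      R (Set.range x) (a * Fintype.card G) (Set.range (act V G (∏ i, gam (v i)) x))

theorem PP.naive (L : ℕ) : PP V L (3 * L) := by
  intro G _ _ _ ι _ v hL _ x
  have := R_prod_gam Finset.univ v x
  rwa [Finset.card_univ, hL] at this

theorem PP.mono {L : ℕ} {a b : ℝ} (h : PP V L a) (hab : a ≤ b) : PP V L b := by
  intro G _ _ _ ι _ v hL hv x
  exact (h G ι v hL hv x).mono_cost (mul_le_mul_of_nonneg_right hab (Nat.cast_nonneg _))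

section sys

variable {I J : Type} [Fintype I] [DecidableEq I] [Fintype J] [DecidableEq J]

/-- the vector `z` placed in column `j` -/
def col (j : J) : (I → ZMod 2) →+ (J × I → ZMod 2) where
  toFun z := fun p => if p.1 = j then z p.2 else 0
  map_zero' := by funext p; simp
  map_add' z w := by funext p; by_cases h : p.1 = j <;> simp [h]

theorem col_bv (j : J) (i : I) : col j (bv i) = bv (j, i) := by
  funext p
  obtain ⟨j', i'⟩ := p
  simp only [col, bv, AddMonoidHom.coe_mk, ZeroHom.coe_mk, Pi.single_apply, Prod.mk.injEq]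
  by_cases h : j' = j <;> simp [h]

theorem col_indep {z : I → ZMod 2} (hz : z ≠ 0) :
    LinearIndependent (ZMod 2) (fun j : J => col j z) := by
  obtain ⟨i, hi⟩ := Function.ne_iff.1 hz
  rw [Fintype.linearIndependent_iff]
  intro g hg j
  have := congrFun hg (j, i)
  simp only [col, AddMonoidHom.coe_mk, ZeroHom.coe_mk, Finset.sum_apply, Pi.smul_apply,
    smul_eq_mul, mul_ite, mul_zero, Finset.sum_ite_eq, Finset.mem_univ, if_true,
    Pi.zero_apply] at this
  exact (mul_eq_zero.1 this).resolve_right hi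

theorem ent_mul {G : Type} [AddCommGroup G] (q : Frame G) (u : GA G) (a : G → V) :
    ent (q * fr u) a = ent q (act V G u a) := by
  obtain ⟨w, rfl⟩ := fr_surj q
  rw [← map_mul, ent_fr, ent_fr, act_mul]

/-- The concrete system on arrays with `J` columns. -/
noncomputable def colSys (V : Type) [AddCommGroup V] [Module ℂ V] (I J : Type) [Fintype I]
    [DecidableEq I] [Fintype J] [DecidableEq J] (a : ℝ) (ha : 0 ≤ a)
    (h : PP V (Fintype.card J) a) :
    Sys V ((J × I → ZMod 2) → V) (Frame (J × I → ZMod 2)) (I → ZMod 2) where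
  ent := ent
  c z := ∏ j : J, fr (gam (col j z))
  κ := a * Fintype.card (J × I → ZMod 2)
  N := Fintype.card (J × I → ZMod 2)
  hκ := by positivity
  hN := by positivity
  call z q x := by
    by_cases hz : z = 0
    · subst hz
      simp only [map_zero, gam_zero, map_one, Finset.prod_const_one, one_mul]
      exact (R.refl _).mono_cost (by positivity)
    · obtain ⟨u, rfl⟩ := fr_surj q
      rw [← map_prod, ← map_mul, ent_fr, ent_fr, act_mul]
      exact h _ J _ rfl (col_indep hz) _
  comb J' s co x q S hS := ent_comb s co x q S hS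
  sq z := by
    rw [← Finset.prod_mul_distrib]
    exact Finset.prod_eq_one fun j _ => fr_gam_sq _
  rel4 := Rel4.prod _ fun j => Rel4.comp (c := fun w : J × I → ZMod 2 => fr (gam w))
    (fun a b d e => fr_gam_rel4 a b d e) (col j)

end sys

/-- tensor product of vectors -/
def tens (ι : Type) : (ι → ZMod 2) →+ (ι → ZMod 2) →+ (ι × ι → ZMod 2) where
  toFun x :=
    { toFun := fun y p => x p.1 * y p.2
      map_zero' := by funext p; simp
      map_add' := fun y y' => by funext p; simp [mul_add] }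
  map_zero' := by ext y p; simp
  map_add' x x' := by ext y p; simp [add_mul]

variable {ι : Type} [Fintype ι] [DecidableEq ι]

theorem tens_bv (i j : ι) : tens ι (bv i) (bv j) = bv (i, j) := by
  funext p
  obtain ⟨i', j'⟩ := p
  simp only [tens, bv, AddMonoidHom.coe_mk, ZeroHom.coe_mk, Pi.single_apply, Prod.mk.injEq]
  by_cases h : i' = i <;> by_cases h' : j' = j <;> simp [h, h']

theorem batch_net (h8 : 8 ≤ Fintype.card ι) (hΔ : 0 ≤ saving ι) (J : Type) [Fintype J]
    [DecidableEq J] (a : ℝ) (ha : 0 ≤ a) (h : PP V (Fintype.card J) a) (β : Type) [Fintype β]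
    (hW0 : 0 < Fintype.card (Wire ι)) (hβ : Fintype.card (Wire ι) ≤ Fintype.card β)
    (x : β → (J × (ι × ι) → ZMod 2) → V) :
    R (⋃ b, Set.range (x b))
      (Fintype.card β * Fintype.card (J × (ι × ι) → ZMod 2) *
        (((Fintype.card ι : ℝ) ^ 2 - saving ι / (2 * Fintype.card (Wire ι))) * a + ngates ι))
      (⋃ b, Set.range (act V _ (∏ p, gam (bv p)) (x b))) := by
  classical
  let σ := colSys V (ι × ι) J a ha h
  have hFull : ∏ i, ∏ j, σ.c (tens ι (bv i) (bv j)) =
      fr (∏ p : J × (ι × ι), gam (bv p)) := by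
    calc _ = ∏ p : ι × ι, ∏ j : J, fr (gam (bv (j, p))) := by
          rw [Fintype.prod_prod_type]
          simp only [σ, colSys, tens_bv, col_bv]
      _ = ∏ j : J, ∏ p : ι × ι, fr (gam (bv (j, p))) := Finset.prod_comm
      _ = _ := by rw [map_prod, Fintype.prod_prod_type]
  have hinv : ∀ z y, ∃ x', ∀ q, σ.ent (q * σ.c z) x' = σ.ent q y := by
    intro z y
    refine ⟨act V _ (∏ j : J, gam (col j z)) y, fun q => ?_⟩
    have : σ.c z = fr (∏ j : J, gam (col j z)) := (map_prod _ _ _).symm
    change ent _ _ = ent _ _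
    rw [← ent_mul, ← this, mul_assoc, σ.sq, mul_one]
  have hnet := fun y => net σ h8 hinv (tens ι) y
  have hsm : Small σ.c (Fintype.card (ι × ι)) (∏ i, ∏ j, σ.c (tens ι (bv i) (bv j))) := by
    rw [← Fintype.prod_prod_type (fun p : ι × ι => σ.c (tens ι (bv p.1) (bv p.2)))]
    exact small_prod _ _
  have hnaive := fun y => σ.move hsm (one_mul _) y
  rw [hFull] at hnet hnaive
  have e1 : ∀ y, σ.ent 1 y = Set.range y := fun y => ent_one y
  have e2 : ∀ u y, σ.ent (fr u) y = Set.range (act V _ u y) := fun u y => ent_fr u y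
  simp only [e1, e2] at hnet hnaive
  set W := Fintype.card (Wire ι) with hW
  set ng := Fintype.card β / W with hng
  obtain ⟨e⟩ : Nonempty (Fin ng × Wire ι ↪ β) := Function.Embedding.nonempty_of_card_le (by
    rw [Fintype.card_prod, Fintype.card_fin]; exact Nat.div_mul_le_self _ _)
  have hA := R.iUnion_const (S := ⋃ b, Set.range (x b)) (fun g : Fin ng =>
    (hnet (fun w => x (e (g, w)))).mono_left
      (Set.iUnion_subset fun w => Set.subset_iUnion (fun b => Set.range (x b)) _))
  have hB := R.biUnion (S := ⋃ b, Set.range (x b)) (Finset.univ.map e)ᶜ (fun b _ =>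
    (hnaive (x b)).mono_left (Set.subset_iUnion (fun b => Set.range (x b)) _))
  refine ((hA.union hB).mono_cost ?_).mono_right ?_
  · rw [Finset.sum_const, Finset.card_compl, Finset.card_map, Finset.card_univ, Fintype.card_prod,
      Fintype.card_fin, nsmul_eq_mul, Nat.cast_sub (Nat.div_mul_le_self _ _), ← hng,
      Fintype.card_prod]
    have hκ : σ.κ = a * Fintype.card (J × (ι × ι) → ZMod 2) := rfl
    have hN : σ.N = Fintype.card (J × (ι × ι) → ZMod 2) := rfl
    rw [hκ, hN]
    have hN0 : (0 : ℝ) ≤ (Fintype.card (J × (ι × ι) → ZMod 2) : ℝ) := Nat.cast_nonneg _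
    generalize (Fintype.card (J × (ι × ι) → ZMod 2) : ℝ) = N at hN0 ⊢
    have hng1 : 1 ≤ ng := (Nat.le_div_iff_mul_le hW0).2 (by simpa using hβ)
    have hb1 : Fintype.card β ≤ 2 * ng * W := by
      have := Nat.lt_mul_div_succ (Fintype.card β) hW0
      rw [← hng] at this
      nlinarith
    have hb2 : ng ≤ Fintype.card β := Nat.div_le_self _ _
    have hb1' : (Fintype.card β : ℝ) ≤ 2 * ng * W := by exact_mod_cast hb1
    have hb2' : (ng : ℝ) ≤ Fintype.card β := by exact_mod_cast hb2
    have hW0' : (0 : ℝ) < W := by exact_mod_cast hW0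
    have hg0 : 0 ≤ ngates ι := by simp only [ngates, mgates]; positivity
    have k1 : Fintype.card β * (saving ι / (2 * W)) ≤ ng * saving ι := by
      rw [mul_div_assoc', div_le_iff₀ (by positivity)]
      nlinarith
    have k2 : Fintype.card β * (saving ι / (2 * W)) * (a * N) ≤ ng * saving ι * (a * N) :=
      mul_le_mul_of_nonneg_right k1 (by positivity)
    have k3 : ng * (ngates ι * N) ≤ Fintype.card β * (ngates ι * N) :=
      mul_le_mul_of_nonneg_right hb2' (by positivity)
    push_cast
    nlinarith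
  · refine Set.iUnion_subset fun b => ?_
    by_cases hb : b ∈ Finset.univ.map e
    · obtain ⟨⟨g, w⟩, -, rfl⟩ := Finset.mem_map.1 hb
      refine Set.subset_union_of_subset_left ?_ _
      exact Set.subset_iUnion_of_subset g (Set.subset_iUnion_of_subset w subset_rfl)
    · refine Set.subset_union_of_subset_right ?_ _
      exact Set.subset_iUnion₂_of_subset b (Finset.mem_compl.2 hb) subset_rfl

theorem PP.step (h8 : 8 ≤ Fintype.card ι) (hΔ : 0 ≤ saving ι) (hW0 : 0 < Fintype.card (Wire ι))
    (f r : ℕ) (a : ℝ) (ha : 0 ≤ a) (h : PP V f a) (hr : Fintype.card (Wire ι) ≤ r) :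
    PP V (f * Fintype.card ι ^ 2 + r)
      (((Fintype.card ι : ℝ) ^ 2 - saving ι / (2 * Fintype.card (Wire ι))) * a + ngates ι +
        3 * r) := by
  classical
  intro G _ _ _ κ _ v hL hv x
  let e : (Fin f × (ι × ι)) ⊕ Fin r ≃ κ := Fintype.equivOfCardEq (by
    simp only [Fintype.card_sum, Fintype.card_prod, Fintype.card_fin, hL]; ring)
  let v1 : Fin f × (ι × ι) → G := fun p => v (e (Sum.inl p))
  have hv1 : LinearIndependent (ZMod 2) v1 :=
    hv.comp (fun p => e (Sum.inl p)) (e.injective.comp Sum.inl_injective)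
  let φ : (Fin f × (ι × ι) → ZMod 2) →+ G :=
    (Fintype.linearCombination (ZMod 2) v1).toAddMonoidHom
  have hφ : Function.Injective φ :=
    linearIndependent_iff_injective_fintypeLinearCombination.1 hv1
  have hφv : ∀ p, φ (bv p) = v1 p := fun p => by
    simp [φ, bv, Fintype.linearCombination_apply_single]
  have hprod : ∏ i, gam (v i) =
      (∏ j : Fin r, gam (v (e (Sum.inr j)))) * push φ (∏ p, gam (bv p)) := by
    rw [← e.prod_comp (fun i => gam (v i)), Fintype.prod_sum_type, map_prod, mul_comm]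
    simp only [push_gam, hφv, v1]
  let β := G ⧸ φ.range
  have : Fintype β := Fintype.ofFinite _
  have hcard : Fintype.card G = Fintype.card β * Fintype.card (Fin f × (ι × ι) → ZMod 2) := by
    have := AddSubgroup.card_eq_card_quotient_mul_card_addSubgroup φ.range
    rw [← Nat.card_congr (AddMonoidHom.ofInjective hφ).toEquiv] at this
    simpa only [Nat.card_eq_fintype_card] using this
  have hG : 2 ^ (f * Fintype.card ι ^ 2 + r) ≤ Fintype.card G := by
    have := Fintype.card_le_of_injective _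
      (linearIndependent_iff_injective_fintypeLinearCombination.1 hv)
    simpa [hL] using this
  have hβ : Fintype.card (Wire ι) ≤ Fintype.card β := by
    have h1 : Fintype.card (Fin f × (ι × ι) → ZMod 2) = 2 ^ (f * Fintype.card ι ^ 2) := by
      simp [pow_two]
    rw [hcard, h1, pow_add, mul_comm] at hG
    have h2 := Nat.le_of_mul_le_mul_right hG (by positivity)
    exact hr.trans (Nat.lt_two_pow_self.le.trans h2)
  have hb := batch_net h8 hΔ (Fin f) a ha (by simpa using h) β hW0 hβ
    (fun b y => x (Quotient.out b + φ y))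
  have hb' : R (Set.range x) _ (Set.range (act V G (push φ (∏ p, gam (bv p))) x)) :=
    (hb.mono_left (Set.iUnion_subset fun b => by
      rintro _ ⟨y, rfl⟩; exact ⟨_, rfl⟩)).mono_right (by
      rintro _ ⟨g, rfl⟩
      obtain ⟨⟨_, y, rfl⟩, hy⟩ := QuotientAddGroup.mk_out_eq_add φ.range g
      refine Set.mem_iUnion.2 ⟨(QuotientAddGroup.mk g : β), -y, ?_⟩
      rw [← act_push]
      simp only [hy, map_neg, add_neg_cancel_right])
  rw [hprod, act_mul]
  refine (hb'.trans (R_prod_gam Finset.univ _ _)).mono_cost (le_of_eq ?_)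
  rw [hcard, Finset.card_univ, Fintype.card_fin]
  push_cast
  ring

theorem PP.power (h8 : 8 ≤ Fintype.card ι) (hΔ : 0 ≤ saving ι) (hW0 : 0 < Fintype.card (Wire ι))
    (θ : ℝ) (hθ : 0 ≤ θ)
    (hlam : (Fintype.card ι : ℝ) ^ 2 - saving ι / (2 * Fintype.card (Wire ι)) <
      ((Fintype.card ι : ℝ) ^ 2) ^ θ) :
    ∃ C : ℝ, 0 ≤ C ∧ ∀ L : ℕ, PP V L (C * ((L : ℝ) + 1) ^ θ) := by
  set lam := (Fintype.card ι : ℝ) ^ 2 - saving ι / (2 * Fintype.card (Wire ι))
  set m := Fintype.card ι ^ 2 with hm
  have hm2 : 2 ≤ m := by nlinarith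
  have hmR : (Fintype.card ι : ℝ) ^ 2 = m := by rw [hm]; push_cast; ring
  rw [hmR] at hlam
  have hmθ : 0 < (m : ℝ) ^ θ := by positivity
  obtain ⟨ρ, hρ0, hρ1, hρ⟩ : ∃ ρ : ℝ, 0 ≤ ρ ∧ ρ < 1 ∧ lam ≤ ρ * (m : ℝ) ^ θ := by
    refine ⟨max (lam / (m : ℝ) ^ θ) 0, le_max_right _ _,
      max_lt ((div_lt_one hmθ).2 hlam) one_pos, ?_⟩
    rw [← div_le_iff₀ hmθ]
    exact le_max_left _ _
  set w := Fintype.card (Wire ι) + m with hw
  have hg0 : 0 ≤ ngates ι := by simp only [ngates, mgates]; positivity
  set C := (ngates ι + 3 * (w + m)) / (1 - ρ) with hC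
  have hC0 : 0 ≤ C := by
    have : 0 < 1 - ρ := by linarith
    positivity
  have hC1 : (1 - ρ) * C = ngates ι + 3 * (w + m) := by
    have : 1 - ρ ≠ 0 := by linarith
    rw [hC]; field_simp
  refine ⟨C, hC0, fun L => ?_⟩
  induction L using Nat.strong_induction_on with
  | _ L ih =>
    have hL1 : (1 : ℝ) ≤ ((L : ℝ) + 1) ^ θ :=
      Real.one_le_rpow (by linarith [Nat.cast_nonneg (α := ℝ) L]) hθ
    by_cases hL : L < w
    · refine (PP.naive L).mono ?_
      have h1 : (L : ℝ) ≤ w := by exact_mod_cast hL.le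
      have h2 : (0 : ℝ) ≤ m := Nat.cast_nonneg _
      nlinarith
    · push Not at hL
      set f := (L - w) / m with hf
      have hfm : f * m ≤ L - w := Nat.div_mul_le_self _ _
      have hfm' : L - w < m * (f + 1) := Nat.lt_mul_div_succ _ (by omega)
      have hfL : f < L := by
        have : f * 2 ≤ f * m := Nat.mul_le_mul_left _ hm2
        omega
      obtain ⟨r, hr⟩ : ∃ r, L = f * m + r := ⟨L - f * m, by omega⟩
      have hr1 : Fintype.card (Wire ι) ≤ r := by omega
      have hr2 : r ≤ w + m := by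
        have : m * (f + 1) = f * m + m := by ring
        omega
      have := PP.step h8 hΔ hW0 f r _ (by positivity) (ih f hfL) hr1
      rw [← hm, ← hr] at this
      refine this.mono ?_
      have h1 : ((f : ℝ) + 1) * m ≤ L + 1 := by
        have : (f + 1) * m ≤ L + 1 := by
          have : (f + 1) * m = f * m + m := by ring
          omega
        exact_mod_cast this
      have h2 : ((f : ℝ) + 1) ^ θ * (m : ℝ) ^ θ ≤ ((L : ℝ) + 1) ^ θ := by
        rw [← Real.mul_rpow (by positivity) (by positivity)]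
        exact Real.rpow_le_rpow (by positivity) h1 hθ
      have h3 : (r : ℝ) ≤ w + m := by exact_mod_cast hr2
      have h4 : lam * (C * ((f : ℝ) + 1) ^ θ) ≤ ρ * (m : ℝ) ^ θ * (C * ((f : ℝ) + 1) ^ θ) :=
        mul_le_mul_of_nonneg_right hρ (by positivity)
      have h5 : ρ * C * (((f : ℝ) + 1) ^ θ * (m : ℝ) ^ θ) ≤ ρ * C * ((L : ℝ) + 1) ^ θ :=
        mul_le_mul_of_nonneg_left h2 (by positivity)
      have h6 : (1 - ρ) * C * 1 ≤ (1 - ρ) * C * ((L : ℝ) + 1) ^ θ :=
        mul_le_mul_of_nonneg_left hL1 (by rw [hC1]; positivity)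
      nlinarith

open Crest.FourierCircuit in
theorem PP.final_aux (h20 : Fintype.card ι = 20) :
    ∃ C : ℝ, 0 ≤ C ∧ ∀ L : ℕ, PP V L (C * ((L : ℝ) + 1) ^ savingExponent) := by
  have hv : Fintype.card (Trip ι) = 1140 := by
    rw [Fintype.card_finset_len, h20]; rfl
  have hs : saving ι = 342000 := by
    simp only [saving, hv, h20]; norm_num
  have hp : Fintype.card (EvPair ι) ≤ 1140 * 1140 := by
    refine (Fintype.card_subtype_le _).trans ?_
    rw [Fintype.card_prod, hv]
  have hW : Fintype.card (Wire ι) = 2 * (1140 * 1140) +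
      2 * (1140 * Fintype.card (EvPair ι)) := by
    simp only [Fintype.card_sum, Fintype.card_prod, hv]; ring
  have hθ : (10 ^ 6 : ℝ) ^ savingExponent = 10 ^ 6 - 6871402692000000 / 2 ^ 71 :=
    Real.rpow_logb (by norm_num) (by norm_num) (by norm_num)
  have hθ0 : 0 ≤ savingExponent := Real.logb_nonneg (by norm_num) (by norm_num)
  have hθ1 : savingExponent ≤ 1 := by
    rw [savingExponent, Real.logb_le_iff_le_rpow (by norm_num) (by norm_num)]
    norm_num
  refine PP.power (ι := ι) (by omega) (by rw [hs]; norm_num) (by omega) _ hθ0 ?_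
  rw [hs, h20]
  generalize Fintype.card (Wire ι) = W at hW ⊢
  generalize Fintype.card (EvPair ι) = w at hW hp
  have h1 : (10 ^ 6 : ℝ) ^ savingExponent = (400 : ℝ) ^ savingExponent * 2500 ^ savingExponent := by
    rw [← Real.mul_rpow (by norm_num) (by norm_num)]; norm_num
  have h2 : (2500 : ℝ) ^ savingExponent ≤ 2500 := by
    simpa using Real.rpow_le_rpow_of_exponent_le (x := 2500) (by norm_num) hθ1
  have h3 : (0 : ℝ) < 400 ^ savingExponent := by positivity
  have h4 : (10 ^ 6 - 6871402692000000 / 2 ^ 71 : ℝ) ≤ 400 ^ savingExponent * 2500 := by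
    rw [← hθ, h1]; exact mul_le_mul_of_nonneg_left h2 h3.le
  have h5 : (W : ℝ) ≤ 3000000000 := by
    have : W ≤ 3000000000 := by omega
    exact_mod_cast this
  have h6 : (0 : ℝ) < W := by
    have : 0 < W := by omega
    exact_mod_cast this
  have h7 : (342000 : ℝ) / (2 * 3000000000) ≤ 342000 / (2 * W) := by
    gcongr
  have h8 : (((20 : ℕ) : ℝ) ^ 2) = 400 := by norm_num
  rw [h8]
  norm_num at h4 h7 ⊢
  linarith

open Crest.FourierCircuit in
theorem PP.final : ∃ C : ℝ, 0 ≤ C ∧ ∀ L : ℕ, PP V L (C * ((L : ℝ) + 1) ^ savingExponent) :=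
  PP.final_aux (ι := Fin 20) (Fintype.card_fin 20)

end Crest.Agent.R324
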