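import Crest.Agent.R324.Rec

/-! Words in monomial matrices and layers; the cost of tensor products of words. -/

set_option autoImplicit false
set_option linter.unusedSectionVars false

namespace Crest.Agent.R324

open Finset

variable {V : Type} [AddCommGroup V] [Module ℂ V]

/-- selection matrix: `(sel f x) i = x (f i)` -/
def sel {ι κ : Type} [DecidableEq κ] (f : ι → κ) : Matrix ι κ ℂ :=
  Matrix.of fun i j => if f i = j then 1 else 0

/-- at most one non-zero entry in each row -/
def IsMono {ι : Type} [DecidableEq ι] (M : Matrix ι ι ℂ) : Prop :=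
  ∃ (f : ι → ι) (d : ι → ℂ), M = Matrix.of fun i j => if f i = j then d i else 0

/-- a layer of disjoint square roots of swaps -/
def IsLayer {ι : Type} [DecidableEq ι] (M : Matrix ι ι ℂ) : Prop :=
  ∃ σ : ι → ι, Function.Involutive σ ∧ M = al • (1 : Matrix ι ι ℂ) + be • sel σ

/-- alternating products with `k` layers -/
def Word {ι : Type} [Fintype ι] [DecidableEq ι] : ℕ → Matrix ι ι ℂ → Prop
  | 0, A => IsMono A
  | k + 1, A => ∃ M L A' : Matrix ι ι ℂ, IsMono M ∧ IsLayer L ∧ Word k A' ∧ A = M * L * A'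

section tp

variable {I : Type} [Fintype I] [DecidableEq I] {κ : I → Type} [∀ i, Fintype (κ i)]
  [∀ i, DecidableEq (κ i)]

/-- tensor product of a family of square matrices -/
def tp (A : ∀ i, Matrix (κ i) (κ i) ℂ) : Matrix (∀ i, κ i) (∀ i, κ i) ℂ :=
  Matrix.of fun x y => ∏ i, A i (x i) (y i)

theorem tp_mul (A B : ∀ i, Matrix (κ i) (κ i) ℂ) : tp (fun i => A i * B i) = tp A * tp B := by
  ext x y
  simp only [tp, Matrix.of_apply, Matrix.mul_apply, Finset.prod_univ_sum, Fintype.piFinset_univ,
    Finset.prod_mul_distrib]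

theorem cost_tp_mono (A : ∀ i, Matrix (κ i) (κ i) ℂ) (h : ∀ i, IsMono (A i)) :
    Cost V (tp A) (Fintype.card (∀ i, κ i)) := by
  choose f d hA using h
  refine Cost.of_row _ fun x => Or.inr ⟨fun i => f i (x i), fun y hy => ?_⟩
  obtain ⟨i, hi⟩ := Function.ne_iff.1 hy
  exact Finset.prod_eq_zero (Finset.mem_univ i) (by simp [hA, hi.symm])

theorem zmod2_cases (t : ZMod 2) : t = 0 ∨ t = 1 := by revert t; decide

/-- coefficient of the square root of the swap -/
noncomputable def cf (t : ZMod 2) : ℂ := if t = 0 then al else be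

theorem sum_zmod2 {M : Type} [AddCommMonoid M] (f : ZMod 2 → M) : ∑ t, f t = f 0 + f 1 :=
  Fin.sum_univ_two f

theorem act_full (b : (I → ZMod 2) → V) (y : I → ZMod 2) :
    act V _ (∏ i, gam (bv i)) b y = ∑ w : I → ZMod 2, (∏ i, cf (w i)) • b (y + w) := by
  have h1 : ∀ i : I, gam (bv i) = ∑ t : ZMod 2, AddMonoidAlgebra.single (t • bv i) (cf t) := by
    intro i
    rw [sum_zmod2]
    simp [gam, cf]
  have h2 : ∀ w : I → ZMod 2, ∑ i, w i • bv i = w := by
    intro w
    funext j
    simp [bv, Finset.sum_apply, Pi.single_apply]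
  simp only [h1, Finset.prod_univ_sum, Fintype.piFinset_univ, AddMonoidAlgebra.prod_single, h2,
    map_sum, LinearMap.sum_apply, Finset.sum_apply, act_single]

/-- the action of the cube on the product of the index types -/
def mv (σ : ∀ i, κ i → κ i) (w : I → ZMod 2) (x : ∀ i, κ i) : ∀ i, κ i :=
  fun i => if w i = 0 then x i else σ i (x i)

theorem mv_mv {σ : ∀ i, κ i → κ i} (hσ : ∀ i, Function.Involutive (σ i)) (w w' : I → ZMod 2)
    (x : ∀ i, κ i) : mv σ w' (mv σ w x) = mv σ (w + w') x := by
  funext i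
  have h11 : (1 : ZMod 2) + 1 = 0 := by decide
  rcases zmod2_cases (w i) with h | h <;> rcases zmod2_cases (w' i) with h' | h' <;>
    simp [mv, h, h', h11, hσ i (x i)]

theorem mv_zero (σ : ∀ i, κ i → κ i) (x : ∀ i, κ i) : mv σ 0 x = x := by
  funext i; simp [mv]

theorem app_tp_layer (σ : ∀ i, κ i → κ i) (a : (∀ i, κ i) → V) (x : ∀ i, κ i) :
    app (tp fun i => al • (1 : Matrix (κ i) (κ i) ℂ) + be • sel (σ i)) a x =
      ∑ w : I → ZMod 2, (∏ i, cf (w i)) • a (mv σ w x) := by
  have h1 : ∀ (i : I) (u v : κ i), (al • (1 : Matrix (κ i) (κ i) ℂ) + be • sel (σ i)) u v =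
      ∑ t : ZMod 2, cf t * (if (if t = 0 then u else σ i u) = v then 1 else 0) := by
    intro i u v
    rw [sum_zmod2]
    simp [cf, sel, Matrix.one_apply]
  simp only [app, tp, Matrix.of_apply, h1, Finset.prod_univ_sum, Fintype.piFinset_univ,
    Finset.sum_smul, Finset.prod_mul_distrib]
  rw [Finset.sum_comm]
  refine Finset.sum_congr rfl fun w _ => ?_
  rw [Finset.sum_eq_single (mv σ w x)]
  · simp [mv]
  · intro y _ hy
    obtain ⟨i, hi⟩ := Function.ne_iff.1 hy
    have : (∏ j, if (if w j = 0 then x j else σ j (x j)) = y j then (1 : ℂ) else 0) = 0 :=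
      Finset.prod_eq_zero (Finset.mem_univ i) (if_neg hi.symm)
    rw [this]
    simp
  · simp

theorem cost_tp_layer (A : ∀ i, Matrix (κ i) (κ i) ℂ) (h : ∀ i, IsLayer (A i)) (c : ℝ)
    (hc : 0 ≤ c) (hP : ∀ l ≤ Fintype.card I, PP V l c) :
    Cost V (tp A) (c * Fintype.card (∀ i, κ i)) := by
  classical
  choose σ hσ hA using h
  obtain rfl : A = fun i => al • (1 : Matrix (κ i) (κ i) ℂ) + be • sel (σ i) := funext hA
  intro a
  let st : Setoid (∀ i, κ i) :=
    { r := fun x x' => ∃ w, x' = mv σ w x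
      iseqv :=
        { refl := fun x => ⟨0, (mv_zero σ x).symm⟩
          symm := by
            rintro x _ ⟨w, rfl⟩
            exact ⟨w, by rw [mv_mv hσ, add_self_two, mv_zero]⟩
          trans := by
            rintro x _ _ ⟨w, rfl⟩ ⟨w', rfl⟩
            exact ⟨w + w', mv_mv hσ _ _ _⟩ } }
  let S : (∀ i, κ i) → Type := fun x => {i // σ i (x i) ≠ x i}
  let ext : ∀ x, (S x → ZMod 2) → I → ZMod 2 := fun x y i =>
    if h : σ i (x i) ≠ x i then y ⟨i, h⟩ else 0
  let proj : ∀ x, (I → ZMod 2) →+ (S x → ZMod 2) := fun x =>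
    { toFun := fun w i => w i.1
      map_zero' := rfl
      map_add' := fun _ _ => rfl }
  have hext : ∀ x w, mv σ (ext x (proj x w)) x = mv σ w x := by
    intro x w
    funext i
    by_cases h : σ i (x i) = x i
    · simp [mv, h]
    · simp [mv, ext, proj, h]
  have hpush : ∀ x, push (proj x) (∏ i, gam (bv i)) = ∏ i : S x, gam (bv i) := by
    intro x
    rw [map_prod, ← Fintype.prod_subtype_mul_prod_subtype (fun i => σ i (x i) ≠ x i)]
    simp only [push_gam]
    rw [Finset.prod_eq_one (s := Finset.univ)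
      (f := fun i : {i // ¬ σ i (x i) ≠ x i} => gam (proj x (bv i.1))), mul_one]
    · refine Finset.prod_congr rfl fun i _ => ?_
      congr 1
      funext j
      simp only [proj, bv, Pi.single_apply, AddMonoidHom.coe_mk, ZeroHom.coe_mk]
      exact if_congr Subtype.ext_iff.symm rfl rfl
    · intro i _
      rw [← gam_zero]
      congr 1
      funext j
      have : j.1 ≠ i.1 := fun h => i.2 (h ▸ j.2)
      simp [proj, bv, this]
  have hli : ∀ x, LinearIndependent (ZMod 2) (bv : S x → S x → ZMod 2) := fun x =>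
    Pi.linearIndependent_single_one (S x) (ZMod 2)
  have key : ∀ x, R (Set.range a) (c * Fintype.card (S x → ZMod 2))
      (Set.range fun w => app (tp fun i => al • (1 : Matrix (κ i) (κ i) ℂ) + be • sel (σ i)) a
        (mv σ w x)) := by
    intro x
    have := hP _ (Fintype.card_subtype_le _) (S x → ZMod 2) (S x) bv rfl (hli x)
      (fun y => a (mv σ (ext x y) x))
    refine (this.mono_left ?_).mono_right ?_
    · rintro _ ⟨y, rfl⟩; exact ⟨_, rfl⟩
    · rintro _ ⟨w, rfl⟩
      refine ⟨0 + proj x w, ?_⟩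
      rw [← hpush, act_push, act_full]
      simp only [app_tp_layer, zero_add, hext, mv_mv hσ]
  have hall := R.iUnion (fun ω : Quotient st => key ω.out)
  refine (hall.mono_cost ?_).mono_right ?_
  · rw [← Finset.mul_sum]
    refine mul_le_mul_of_nonneg_left ?_ hc
    have hinj : Function.Injective
        (fun p : (Σ ω : Quotient st, S ω.out → ZMod 2) => mv σ (ext _ p.2) p.1.out) := by
      rintro ⟨ω, y⟩ ⟨ω', y'⟩ hp
      simp only at hp
      have e1 : ω = Quotient.mk st (mv σ (ext _ y) ω.out) :=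
        (Quotient.out_eq ω).symm.trans (Quotient.sound ⟨_, rfl⟩)
      have e2 : ω' = Quotient.mk st (mv σ (ext _ y') ω'.out) :=
        (Quotient.out_eq ω').symm.trans (Quotient.sound ⟨_, rfl⟩)
      obtain rfl : ω = ω' := e1.trans ((congrArg _ hp).trans e2.symm)
      congr 1
      funext i
      have h1 := congrFun hp i.1
      have h2 := i.2
      simp only [mv, ext, h2, dif_pos, ne_eq, not_false_eq_true] at h1
      rcases zmod2_cases (y i) with h | h <;> rcases zmod2_cases (y' i) with h' | h'
      · rw [h, h']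
      · simp [h, h'] at h1; exact absurd h1.symm h2
      · simp [h, h'] at h1; exact absurd h1 h2
      · rw [h, h']
    have := Fintype.card_le_of_injective _ hinj
    rw [Fintype.card_sigma] at this
    exact_mod_cast this
  · rintro _ ⟨x, rfl⟩
    obtain ⟨w, hw⟩ : st.r (Quotient.mk st x).out x := Quotient.mk_out x
    exact Set.mem_iUnion.2 ⟨Quotient.mk st x, w, by simp only [← hw]⟩

theorem cost_tp_word (c : ℝ) (hc : 0 ≤ c) (hP : ∀ l ≤ Fintype.card I, PP V l c) (k : ℕ) :
    ∀ (A : ∀ i, Matrix (κ i) (κ i) ℂ), (∀ i, Word k (A i)) →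
      Cost V (tp A) ((k * (c + 1) + 1) * Fintype.card (∀ i, κ i)) := by
  induction k with
  | zero => intro A h; simpa using cost_tp_mono A h
  | succ k ih =>
    intro A h
    choose M L A' hM hL hA' hA using h
    obtain rfl : A = fun i => M i * L i * A' i := funext hA
    rw [tp_mul, tp_mul]
    refine (((cost_tp_mono M hM).mul (cost_tp_layer L hL c hc hP)).mul (ih A' hA')).mono
      (le_of_eq ?_)
    push_cast
    ring

end tp

end Crest.Agent.R324
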