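import Crest.Agent.R324.Motif

/-! Triples: orthonormal completions and the scalar design. -/

set_option autoImplicit false

namespace Crest.Agent.R324

open Finset

variable {ι : Type} [Fintype ι] [DecidableEq ι]

/-- basis vector -/
def bv (i : ι) : ι → ZMod 2 := Pi.single i 1

/-- indicator vector -/
def ind (S : Finset ι) : ι → ZMod 2 := ∑ i ∈ S, bv i

omit [Fintype ι] in
theorem block4 {Q : Type} [CommMonoid Q] {c : (ι → ZMod 2) → Q} (hc : Rel4 c) (U : Finset ι)
    (hU : U.card = 4) : ∏ i ∈ U, c (bv i) = ∏ i ∈ U, c (ind (U.erase i)) := by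
  have he : ∀ i ∈ U, ind (U.erase i) = ind U - bv i := by
    intro i hi
    rw [ind, ind, ← Finset.add_sum_erase U bv hi]; abel
  rw [Finset.prod_congr rfl (fun i hi => congrArg c (he i hi))]
  obtain ⟨a, b, d, e, hab, had, hae, hbd, hbe, hde, rfl⟩ := Finset.card_eq_four.1 hU
  have hi : ind ({a, b, d, e} : Finset ι) = bv a + bv b + bv d + bv e := by
    rw [ind, Finset.sum_insert (by simp [*]), Finset.sum_insert (by simp [*]),
      Finset.sum_insert (by simp [*]), Finset.sum_singleton]
    abel
  rw [hi]
  simp only [Finset.prod_insert (show a ∉ ({b, d, e} : Finset ι) by simp [*]),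
    Finset.prod_insert (show b ∉ ({d, e} : Finset ι) by simp [*]),
    Finset.prod_insert (show d ∉ ({e} : Finset ι) by simp [*]), Finset.prod_singleton]
  rw [show bv a + bv b + bv d + bv e - bv a = bv b + bv d + bv e by abel,
    show bv a + bv b + bv d + bv e - bv b = bv a + bv d + bv e by abel,
    show bv a + bv b + bv d + bv e - bv d = bv a + bv b + bv e by abel,
    show bv a + bv b + bv d + bv e - bv e = bv a + bv b + bv d by abel]
  have := hc (bv a) (bv b) (bv d) (bv e)
  calc _ = c (bv a) * c (bv b) * c (bv d) * c (bv e) := by ac_rfl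
    _ = _ := this
    _ = _ := by ac_rfl

theorem one_line (Q : Type) [CommMonoid Q] (h4 : 4 ≤ Fintype.card ι) (S : Finset ι)
    (hS : S.card = 3) : ∃ s : Multiset (ι → ZMod 2), s.card + 1 = Fintype.card ι ∧
      ∀ c : (ι → ZMod 2) → Q, Rel4 c → ∏ i, c (bv i) = c (ind S) * (s.map c).prod := by
  obtain ⟨g, -, hg⟩ := Finset.exists_mem_notMem_of_card_lt_card (s := S) (t := Finset.univ)
    (by rw [Finset.card_univ]; omega)
  have hU : (insert g S).card = 4 := by rw [Finset.card_insert_of_notMem hg, hS]
  refine ⟨S.val.map (fun i => ind ((insert g S).erase i)) + (insert g S)ᶜ.val.map bv, ?_, ?_⟩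
  · simp only [Multiset.card_add, Multiset.card_map, Finset.card_val, Finset.card_compl, hS, hU]
    omega
  · intro c hc
    rw [← Finset.prod_mul_prod_compl (insert g S), block4 hc _ hU, Finset.prod_insert hg,
      Finset.erase_insert hg]
    simp only [Multiset.map_add, Multiset.prod_add, Multiset.map_map, mul_assoc]
    rfl

theorem two_lines (Q : Type) [CommMonoid Q] (h8 : 8 ≤ Fintype.card ι) (S T : Finset ι)
    (hS : S.card = 3) (hT : T.card = 3) (hST : (S ∩ T).card = 0 ∨ (S ∩ T).card = 2) :
    ∃ s : Multiset (ι → ZMod 2), s.card + 2 = Fintype.card ι ∧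
      ∀ c : (ι → ZMod 2) → Q, Rel4 c →
        ∏ i, c (bv i) = c (ind S) * c (ind T) * (s.map c).prod := by
  have hu := Finset.card_union_add_card_inter S T
  rcases hST with h0 | h2
  · obtain ⟨g, -, hg⟩ := Finset.exists_mem_notMem_of_card_lt_card (s := S ∪ T) (t := Finset.univ)
      (by rw [Finset.card_univ]; omega)
    obtain ⟨g', -, hg'⟩ := Finset.exists_mem_notMem_of_card_lt_card (s := insert g (S ∪ T))
      (t := Finset.univ) (by rw [Finset.card_univ, Finset.card_insert_of_notMem hg]; omega)
    simp only [Finset.mem_union, Finset.mem_insert, not_or] at hg hg'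
    have hU : (insert g S).card = 4 := by rw [Finset.card_insert_of_notMem hg.1, hS]
    have hU' : (insert g' T).card = 4 := by rw [Finset.card_insert_of_notMem hg'.2.2, hT]
    have hd : Disjoint (insert g S) (insert g' T) := by
      have hST : Disjoint S T := Finset.disjoint_iff_inter_eq_empty.2 (Finset.card_eq_zero.1 h0)
      simp only [Finset.disjoint_insert_left, Finset.disjoint_insert_right, Finset.mem_insert,
        not_or]
      exact ⟨⟨hg'.1, hg'.2.1⟩, hg.2, hST⟩
    refine ⟨S.val.map (fun i => ind ((insert g S).erase i)) +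
      T.val.map (fun i => ind ((insert g' T).erase i)) +
      ((insert g S) ∪ (insert g' T))ᶜ.val.map bv, ?_, ?_⟩
    · simp only [Multiset.card_add, Multiset.card_map, Finset.card_val, Finset.card_compl, hS, hT,
        Finset.card_union_of_disjoint hd, hU, hU']
      omega
    · intro c hc
      rw [← Finset.prod_mul_prod_compl ((insert g S) ∪ (insert g' T)), Finset.prod_union hd,
        block4 hc _ hU, block4 hc _ hU', Finset.prod_insert hg.1, Finset.prod_insert hg'.2.2,
        Finset.erase_insert hg.1, Finset.erase_insert hg'.2.2]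
      simp only [Multiset.map_add, Multiset.prod_add, Multiset.map_map]
      simp only [Finset.prod_eq_multiset_prod, Function.comp_def]
      ac_rfl
  · have hU : (S ∪ T).card = 4 := by omega
    obtain ⟨g, hgU, hg⟩ := Finset.exists_mem_notMem_of_card_lt_card (s := S) (t := S ∪ T)
      (by omega)
    obtain ⟨g', hgU', hg'⟩ := Finset.exists_mem_notMem_of_card_lt_card (s := T) (t := S ∪ T)
      (by omega)
    have hSe : (S ∪ T).erase g = S := by
      symm
      apply Finset.eq_of_subset_of_card_le
      · intro i hi
        exact Finset.mem_erase.2 ⟨fun h => hg (h ▸ hi), Finset.mem_union_left _ hi⟩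
      · rw [Finset.card_erase_of_mem hgU]; omega
    have hTe : (S ∪ T).erase g' = T := by
      symm
      apply Finset.eq_of_subset_of_card_le
      · intro i hi
        exact Finset.mem_erase.2 ⟨fun h => hg' (h ▸ hi), Finset.mem_union_right _ hi⟩
      · rw [Finset.card_erase_of_mem hgU']; omega
    have hg'S : g' ∈ S := by
      rcases Finset.mem_union.1 hgU' with h | h
      · exact h
      · exact absurd h hg'
    refine ⟨(S.erase g').val.map (fun i => ind ((S ∪ T).erase i)) + (S ∪ T)ᶜ.val.map bv, ?_, ?_⟩
    · simp only [Multiset.card_add, Multiset.card_map, Finset.card_val, Finset.card_compl,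
        Finset.card_erase_of_mem hg'S, hS, hU]
      omega
    · intro c hc
      rw [← Finset.prod_mul_prod_compl (S ∪ T), block4 hc _ hU,
        ← Finset.mul_prod_erase _ _ hgU, hSe, ← Finset.mul_prod_erase _ _ hg'S, hTe]
      simp only [Multiset.map_add, Multiset.prod_add, Multiset.map_map]
      simp only [Finset.prod_eq_multiset_prod, Function.comp_def]
      ac_rfl

/-- triples -/
abbrev Trip (ι : Type) [Fintype ι] [DecidableEq ι] := {S : Finset ι // S.card = 3}

/-- pairs of triples with even intersection -/
abbrev EvPair (ι : Type) [Fintype ι] [DecidableEq ι] :=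
  {p : Trip ι × Trip ι // (p.1.1 ∩ p.2.1).card = 0 ∨ (p.1.1 ∩ p.2.1).card = 2}

/-- The design on triples. -/
noncomputable def tripDesign (ι : Type) [Fintype ι] [DecidableEq ι] :
    Design (Trip ι) (EvPair ι) (Option ι) where
  tgt p := p.1.1
  src p := p.1.2
  co p := -(((p.1.1.1 ∩ p.1.2.1).card : ℂ) - 1) / 2
  gat i T := match i with
    | none => 1
    | some i => if i ∈ T.1 then 1 else 0
  sca S i := match i with
    | none => -1 / 2
    | some i => if i ∈ S.1 then 1 / 2 else 0
  ident S T := by
    rw [Fintype.sum_option]
    have h1 : ∑ i : ι, (if i ∈ S.1 then (1 / 2 : ℂ) else 0) * (if i ∈ T.1 then 1 else 0) =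
        ((S.1 ∩ T.1).card : ℂ) / 2 := by
      have : ∀ i : ι, (if i ∈ S.1 then (1 / 2 : ℂ) else 0) * (if i ∈ T.1 then 1 else 0) =
          if i ∈ S.1 ∩ T.1 then 1 / 2 else 0 := by
        intro i
        by_cases h : i ∈ S.1 <;> by_cases h' : i ∈ T.1 <;> simp [h, h']
      simp only [this]
      rw [Finset.sum_ite_mem]
      simp
      ring
    simp only [h1]
    by_cases hev : (S.1 ∩ T.1).card = 0 ∨ (S.1 ∩ T.1).card = 2
    · have hne : S ≠ T := by
        rintro rfl
        have := S.2
        simp only [Finset.inter_self] at hev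
        omega
      rw [Finset.sum_eq_single (⟨(S, T), hev⟩ : EvPair ι)]
      · simp only [hne, if_true, if_false]
        ring
      · rintro ⟨⟨S', T'⟩, hp⟩ hmem hne'
        have h1 : S' = S := (Finset.mem_filter.1 hmem).2
        subst h1
        have h2 : T' ≠ T := by
          rintro rfl
          exact hne' rfl
        simp [h2]
      · intro h
        exact (h (by simp only [Finset.mem_filter, Finset.mem_univ, true_and])).elim
    · rw [Finset.sum_eq_zero]
      · have hle : (S.1 ∩ T.1).card ≤ 3 := (Finset.card_le_card Finset.inter_subset_left).trans S.2.le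
        by_cases hST : S = T
        · subst hST
          simp only [Finset.inter_self, S.2, if_true]
          norm_num
        · have h3 : (S.1 ∩ T.1).card ≠ 3 := by
            intro h3
            apply hST
            apply Subtype.ext
            have e1 : S.1 ∩ T.1 = S.1 := Finset.eq_of_subset_of_card_le Finset.inter_subset_left
              (by rw [h3, S.2])
            have e2 : S.1 ∩ T.1 = T.1 := Finset.eq_of_subset_of_card_le Finset.inter_subset_right
              (by rw [h3, T.2])
            rw [← e1, e2]
          have h1 : (S.1 ∩ T.1).card = 1 := by omega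
          simp only [h1, hST, if_false]
          norm_num
      · rintro ⟨⟨S', T'⟩, hp⟩ hmem
        have h1 : S' = S := (Finset.mem_filter.1 hmem).2
        subst h1
        have h2 : T' ≠ T := by
          rintro rfl
          exact hev hp
        simp [h2]

end Crest.Agent.R324
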