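import Crest.Agent.R324.Tensor

/-! Closure properties of words; shears through dirty auxiliary wires. -/

set_option autoImplicit false
set_option linter.unusedSectionVars false

namespace Crest.Agent.R324

open Finset Matrix

variable {ι a b c : Type} [Fintype ι] [DecidableEq ι] [Fintype a] [DecidableEq a]
  [Fintype b] [DecidableEq b] [Fintype c] [DecidableEq c]

theorem sum_ite_ite (p : a → Prop) [DecidablePred p] (u : a) (h : a → ℂ) :
    (∑ x, if p x then (if u = x then h x else 0) else 0) = if p u then h u else 0 := by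
  rw [Finset.sum_eq_single u]
  · simp
  · intro x _ hx; simp [hx.symm]
  · simp

theorem IsMono.mul {M N : Matrix ι ι ℂ} (hM : IsMono M) (hN : IsMono N) : IsMono (M * N) := by
  obtain ⟨f, d, rfl⟩ := hM
  obtain ⟨g, e, rfl⟩ := hN
  refine ⟨g ∘ f, fun i => d i * e (f i), ?_⟩
  ext i j
  simp [Matrix.mul_apply, sum_ite_ite]

theorem isMono_diagonal (d : ι → ℂ) : IsMono (diagonal d) :=
  ⟨id, d, by ext i j; simp [Matrix.diagonal_apply]⟩

theorem isMono_one : IsMono (1 : Matrix ι ι ℂ) := isMono_diagonal _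

theorem isMono_sel (f : ι → ι) : IsMono (sel f) := ⟨f, fun _ => 1, rfl⟩

theorem sel_id : sel (id : ι → ι) = 1 := by ext i j; simp [sel, Matrix.one_apply]

theorem isLayer_one : IsLayer (1 : Matrix ι ι ℂ) :=
  ⟨id, fun _ => rfl, by rw [sel_id, ← add_smul, al_add_be, one_smul]⟩

theorem Word.mono_mul {k : ℕ} {M A : Matrix ι ι ℂ} (hM : IsMono M) (hA : Word k A) :
    Word k (M * A) := by
  cases k with
  | zero => exact hM.mul hA
  | succ k =>
    obtain ⟨M', L, A', hM', hL, hA', rfl⟩ := hA
    exact ⟨M * M', L, A', hM.mul hM', hL, hA', by simp only [mul_assoc]⟩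

theorem Word.mul {k l : ℕ} {A B : Matrix ι ι ℂ} (hA : Word k A) (hB : Word l B) :
    Word (k + l) (A * B) := by
  induction k generalizing A with
  | zero => simpa using Word.mono_mul hA hB
  | succ k ih =>
    obtain ⟨M, L, A', hM, hL, hA', rfl⟩ := hA
    rw [show k + 1 + l = (k + l) + 1 by ring]
    exact ⟨M, L, A' * B, hM, hL, ih hA', by simp only [mul_assoc]⟩

theorem Word.mul_mono {k : ℕ} {M A : Matrix ι ι ℂ} (hA : Word k A) (hM : IsMono M) :
    Word k (A * M) := hA.mul (l := 0) hM

theorem Word.le {k l : ℕ} {A : Matrix ι ι ℂ} (hA : Word k A) (h : k ≤ l) : Word l A := by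
  induction h with
  | refl => exact hA
  | step _ ih => exact ⟨1, 1, A, isMono_one, isLayer_one, ih, by simp⟩

theorem IsLayer.word {L : Matrix ι ι ℂ} (hL : IsLayer L) : Word 1 L :=
  ⟨1, L, 1, isMono_one, hL, isMono_one, by simp⟩

/-- extension by zero -/
def ins (f : a → ι) : Matrix ι a ℂ := (sel f)ᵀ

theorem sel_mul (f : a → ι) (X : Matrix ι b ℂ) : sel f * X = X.submatrix f id := by
  ext i j; simp [sel, Matrix.mul_apply]

theorem mul_ins (f : a → ι) (X : Matrix b ι ℂ) : X * ins f = X.submatrix id f := by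
  ext i j; simp [ins, sel, Matrix.mul_apply]

theorem sel_mul_sel (f : a → b) (g : b → ι) : sel f * sel g = sel (g ∘ f) := by
  rw [sel_mul]; rfl

theorem ins_mul_ins (f : a → b) (g : b → ι) : ins g * ins f = ins (g ∘ f) := by
  rw [mul_ins]; rfl

theorem sel_mul_ins_self {f : a → ι} (hf : Function.Injective f) : sel f * ins f = 1 := by
  rw [sel_mul]; ext i j; simp [ins, sel, Matrix.one_apply, hf.eq_iff, eq_comm]

theorem sel_mul_ins_disj {f : a → ι} {g : b → ι} (h : ∀ i j, f i ≠ g j) : sel f * ins g = 0 := by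
  rw [sel_mul]; ext i j; simp [ins, sel, (h i j).symm]

theorem ins_mul_apply_mem {f : a → ι} (hf : Function.Injective f) (X : Matrix a b ℂ) (k : a)
    (v : b) : (ins f * X) (f k) v = X k v := by
  simp [ins, sel, Matrix.mul_apply, hf.eq_iff]

theorem ins_mul_apply_not_mem {f : a → ι} (X : Matrix a b ℂ) {u : ι} (hu : ∀ k, f k ≠ u)
    (v : b) : (ins f * X) u v = 0 := by
  simp [ins, sel, Matrix.mul_apply, hu]

/-- apply `A` in place on the wires `f` -/
def On (f : a → ι) (A : Matrix a a ℂ) : Matrix ι ι ℂ := 1 - ins f * sel f + ins f * A * sel f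

theorem on_apply_mem {f : a → ι} (hf : Function.Injective f) (A : Matrix a a ℂ) (k : a) (v : ι) :
    On f A (f k) v = (A * sel f) k v := by
  simp only [On, Matrix.add_apply, Matrix.sub_apply, Matrix.mul_assoc, ins_mul_apply_mem hf]
  simp [sel, Matrix.one_apply]

theorem on_apply_not_mem {f : a → ι} (A : Matrix a a ℂ) {u : ι} (hu : ∀ k, f k ≠ u) (v : ι) :
    On f A u v = if u = v then 1 else 0 := by
  simp only [On, Matrix.add_apply, Matrix.sub_apply, Matrix.mul_assoc, ins_mul_apply_not_mem _ hu]
  simp [Matrix.one_apply]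

theorem sel_mul_on {f : a → ι} (hf : Function.Injective f) (A : Matrix a a ℂ) :
    sel f * On f A = A * sel f := by
  simp only [On, Matrix.mul_add, Matrix.mul_sub, ← Matrix.mul_assoc, sel_mul_ins_self hf]
  simp

theorem on_mul_on {f : a → ι} (hf : Function.Injective f) (A B : Matrix a a ℂ) :
    On f A * On f B = On f (A * B) := by
  conv_lhs => rw [On]
  simp only [Matrix.add_mul, Matrix.sub_mul, Matrix.mul_assoc, sel_mul_on hf, Matrix.one_mul]
  simp only [On, Matrix.mul_assoc]
  abel

theorem on_one (f : a → ι) : On f (1 : Matrix a a ℂ) = 1 := by simp [On]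

theorem IsMono.on {f : a → ι} (hf : Function.Injective f) {M : Matrix a a ℂ} (hM : IsMono M) :
    IsMono (On f M) := by
  obtain ⟨g, d, rfl⟩ := hM
  refine ⟨Function.extend f (f ∘ g) id, Function.extend f d 1, ?_⟩
  ext u v
  by_cases hu : ∃ k, f k = u
  · obtain ⟨k, rfl⟩ := hu
    rw [on_apply_mem hf]
    simp [hf.extend_apply, Matrix.mul_apply, sel, sum_ite_ite]
  · rw [on_apply_not_mem _ (fun k hk => hu ⟨k, hk⟩)]
    simp [Function.extend_apply' _ _ _ hu]

theorem IsLayer.on {f : a → ι} (hf : Function.Injective f) {M : Matrix a a ℂ} (hM : IsLayer M) :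
    IsLayer (On f M) := by
  obtain ⟨σ, hσ, rfl⟩ := hM
  refine ⟨Function.extend f (f ∘ σ) id, ?_, ?_⟩
  · intro u
    by_cases hu : ∃ k, f k = u
    · obtain ⟨k, rfl⟩ := hu
      simp [hf.extend_apply, hσ k]
    · simp [Function.extend_apply' _ _ _ hu]
  · ext u v
    by_cases hu : ∃ k, f k = u
    · obtain ⟨k, rfl⟩ := hu
      rw [on_apply_mem hf, Matrix.add_mul, Matrix.smul_mul, Matrix.smul_mul, Matrix.one_mul,
        sel_mul_sel]
      simp [hf.extend_apply, sel, Matrix.one_apply]
    · rw [on_apply_not_mem _ (fun k hk => hu ⟨k, hk⟩)]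
      simp only [Matrix.add_apply, Matrix.smul_apply, Matrix.one_apply, sel, Matrix.of_apply,
        Function.extend_apply' _ _ _ hu, id, smul_eq_mul, ← add_mul, al_add_be, one_mul]

theorem Word.on {f : a → ι} (hf : Function.Injective f) {k : ℕ} {A : Matrix a a ℂ}
    (hA : Word k A) : Word k (On f A) := by
  induction k generalizing A with
  | zero => exact IsMono.on hf hA
  | succ k ih =>
    obtain ⟨M, L, A', hM, hL, hA', rfl⟩ := hA
    exact ⟨_, _, _, hM.on hf, hL.on hf, ih hA', by rw [on_mul_on hf, on_mul_on hf]⟩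

theorem Word.submatrix (e : ι ≃ a) (f : ι → a) {k : ℕ} {A : Matrix a a ℂ} (hA : Word k A) :
    Word k (A.submatrix f e) := by
  have h := Word.mono_mul (isMono_sel (e.symm ∘ f)) (hA.on e.symm.injective)
  have : sel (e.symm ∘ f) * On e.symm A = A.submatrix f e := by
    rw [← sel_mul_sel, Matrix.mul_assoc, sel_mul_on e.symm.injective, ← Matrix.mul_assoc]
    ext i j
    simp [sel, Matrix.mul_apply, Equiv.symm_apply_eq]
  rwa [this] at h

theorem Word.blockDiagonal {k : ℕ} {A : b → Matrix a a ℂ} (hA : ∀ t, Word k (A t)) :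
    Word k (blockDiagonal A) := by
  have mono : ∀ M : b → Matrix a a ℂ, (∀ t, IsMono (M t)) → IsMono (Matrix.blockDiagonal M) := by
    intro M hM
    choose f d hM using hM
    refine ⟨fun p => (f p.2 p.1, p.2), fun p => d p.2 p.1, ?_⟩
    ext ⟨i, t⟩ ⟨j, t'⟩
    by_cases h : t = t' <;> simp [Matrix.blockDiagonal_apply, hM, h]
  induction k generalizing A with
  | zero => exact mono A hA
  | succ k ih =>
    choose M L A' hM hL hA' hA using hA
    obtain rfl : A = fun t => M t * L t * A' t := funext hA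
    refine ⟨_, Matrix.blockDiagonal L, _, mono M hM, ?_, ih hA', by
      rw [← Matrix.blockDiagonal_mul, ← Matrix.blockDiagonal_mul]⟩
    choose σ hσ hL using hL
    refine ⟨fun p => (σ p.2 p.1, p.2), fun p => by simp [hσ p.2 p.1], ?_⟩
    ext ⟨i, t⟩ ⟨j, t'⟩
    by_cases h : t = t' <;> simp [Matrix.blockDiagonal_apply, hL, h, sel, Matrix.one_apply]

/-! ### two by two matrices -/

theorem word_hadamard : Word 1 (!![1, 1; 1, -1] : Matrix (Fin 2) (Fin 2) ℂ) := by
  have hL : IsLayer (!![al, be; be, al] : Matrix (Fin 2) (Fin 2) ℂ) := by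
    refine ⟨![1, 0], by intro i; fin_cases i <;> rfl, ?_⟩
    ext i j
    fin_cases i <;> fin_cases j <;> simp [sel]
  have := (Word.mono_mul (isMono_diagonal ![1 - Complex.I, 1 + Complex.I]) hL.word).mul_mono
    (isMono_diagonal ![1, Complex.I])
  convert this using 1
  ext i j
  fin_cases i <;> fin_cases j <;> simp [al, be, Complex.ext_iff] <;> norm_num

theorem isMono_diag2 (p q : ℂ) : IsMono (!![p, 0; 0, q] : Matrix (Fin 2) (Fin 2) ℂ) := by
  convert isMono_diagonal ![p, q] using 1
  ext i j; fin_cases i <;> fin_cases j <;> simp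

theorem isMono_swap2 : IsMono (!![0, 1; 1, 0] : Matrix (Fin 2) (Fin 2) ℂ) := by
  convert isMono_sel (![1, 0] : Fin 2 → Fin 2) using 1
  ext i j; fin_cases i <;> fin_cases j <;> simp [sel]

theorem word_shear2 (t : ℂ) : Word 3 (!![1, t; 0, 1] : Matrix (Fin 2) (Fin 2) ℂ) := by
  by_cases ht : t = 0
  · subst ht
    exact Word.le (k := 0) (isMono_diag2 1 1) (by norm_num)
  · have := ((Word.mono_mul isMono_swap2 (Word.mono_mul (isMono_diag2 (1 / 4) (t / 5))
      (((word_hadamard.mul_mono (isMono_diag2 (3 / 2) (1 / 2))).mul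
        (word_hadamard.mul_mono (isMono_diag2 1 2))).mul word_hadamard))).mul_mono
      (isMono_diag2 1 (-5 / (3 * t)))).mul_mono isMono_swap2
    convert this using 1
    simp only [Matrix.mul_fin_two]
    ext i j
    fin_cases i <;> fin_cases j <;> simp <;> field_simp <;> norm_num

/-! ### two blocks -/

theorem on_pair (x y : a → ι) (M : a → Matrix (Fin 2) (Fin 2) ℂ) :
    On (fun p : Fin 2 × a => ![x, y] p.1 p.2) (blockDiagonal M) =
      1 - ins x * sel x - ins y * sel y + ins x * diagonal (fun k => M k 0 0) * sel x +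
        ins x * diagonal (fun k => M k 0 1) * sel y + ins y * diagonal (fun k => M k 1 0) * sel x +
        ins y * diagonal (fun k => M k 1 1) * sel y := by
  ext u v
  have h : ∀ (p : Prop) [Decidable p] (s t : ℂ),
      (if p then s + t else 0) = (if p then s else 0) + (if p then t else 0) := by
    intros; split_ifs <;> simp
  simp only [h, On, Matrix.add_apply, Matrix.sub_apply, Matrix.mul_apply, ins, sel,
    Matrix.transpose_apply, Matrix.of_apply, Fintype.sum_prod_type, Fin.sum_univ_two,
    Matrix.blockDiagonal_apply, Matrix.diagonal_apply, Matrix.cons_val_zero, Matrix.cons_val_one,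
    Finset.sum_add_distrib, add_mul, mul_ite, mul_zero, Finset.sum_ite_eq', Finset.mem_univ,
    if_true]
  ring_nf

theorem pair_inj {x y : a → ι} (hx : Function.Injective x) (hy : Function.Injective y)
    (hxy : ∀ i j, x i ≠ y j) : Function.Injective (fun p : Fin 2 × a => ![x, y] p.1 p.2) := by
  rintro ⟨s, i⟩ ⟨t, j⟩ h
  fin_cases s <;> fin_cases t <;> simp at h
  · rw [hx h]
  · exact absurd h (hxy _ _)
  · exact absurd h.symm (hxy _ _)
  · rw [hy h]

theorem word_shear_diag {x y : a → ι} (hx : Function.Injective x) (hy : Function.Injective y)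
    (hxy : ∀ i j, x i ≠ y j) (d : a → ℂ) : Word 3 (1 + ins x * diagonal d * sel y) := by
  have := (Word.blockDiagonal (fun k => word_shear2 (d k))).on (pair_inj hx hy hxy)
  rw [on_pair] at this
  convert this using 1
  simp
  abel

theorem word_swap {x y : a → ι} (hx : Function.Injective x) (hy : Function.Injective y)
    (hxy : ∀ i j, x i ≠ y j) :
    IsMono (1 - ins x * sel x - ins y * sel y + ins x * sel y + ins y * sel x) := by
  have : IsMono _ :=
    (Word.blockDiagonal (k := 0) (fun _ : a => isMono_swap2)).on (pair_inj hx hy hxy)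
  rw [on_pair] at this
  convert this using 1
  simp

theorem ring_comm {K : Type} [Ring K] (P Q : K) (hP : P * P = 0) (hQ : Q * Q = 0)
    (hQP : Q * P = 0) : (1 + -Q) * (1 + P) * (1 + Q) * (1 + -P) = 1 + P * Q := by
  have h1 : P * Q * P = 0 := by rw [mul_assoc, hQP, mul_zero]
  have h2 : Q * (P * Q) = 0 := by rw [← mul_assoc, hQP, zero_mul]
  have e1 : (1 + P) * (1 + Q) * (1 + -P) = 1 + Q + P * Q := by
    simp only [mul_add, add_mul, one_mul, mul_one, mul_neg, hP, hQP, h1]
    abel
  rw [mul_assoc (1 + -Q), mul_assoc (1 + -Q), e1]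
  simp only [mul_add, add_mul, one_mul, mul_one, neg_mul, hQ, h2]
  abel

/-- A shear by a matrix which factors through an invertible word on dirty auxiliary wires. -/
theorem word_shear_through {x y : a → ι} {z : c → ι} (hx : Function.Injective x)
    (hy : Function.Injective y) (hz : Function.Injective z) (hxy : ∀ i j, x i ≠ y j)
    (hxz : ∀ i j, x i ≠ z j) (hyz : ∀ i j, y i ≠ z j) {g : a → c} (hg : Function.Injective g)
    {k : ℕ} {K K' : Matrix c c ℂ} (hK : Word k K) (hK' : Word k K') (hKK : K' * K = 1)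
    (d1 d2 : a → ℂ) :
    Word (4 * k + 12) (1 + ins y * (diagonal d1 * sel g * K * ins g * diagonal d2) * sel x) := by
  have zy : sel z * ins y = 0 := sel_mul_ins_disj fun i j => (hyz j i).symm
  have xz : sel x * ins z = 0 := sel_mul_ins_disj hxz
  have xy : sel x * ins y = 0 := sel_mul_ins_disj hxy
  have zz : sel z * ins z = 1 := sel_mul_ins_self hz
  have hP : ∀ d : a → ℂ, Word (k + 3 + k) (1 + ins y * (diagonal d * sel g * K) * sel z) := by
    intro d
    have := ((hK'.on hz).mul (word_shear_diag hy (hz.comp hg) (fun i j => hyz i _) d)).mul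
      (hK.on hz)
    convert this using 1
    have e1 : On z K' * ins y = ins y := by
      simp only [On, Matrix.add_mul, Matrix.sub_mul, Matrix.mul_assoc, zy]; simp
    rw [Matrix.mul_add, Matrix.add_mul, Matrix.mul_one, on_mul_on hz, hKK, on_one, ← sel_mul_sel]
    simp only [← Matrix.mul_assoc, e1]
    simp only [Matrix.mul_assoc, sel_mul_on hz]
  have hQ : ∀ d : a → ℂ, Word 3 (1 + ins z * (ins g * diagonal d) * sel x) := by
    intro d
    have := word_shear_diag (hz.comp hg) hx (fun i j => (hxz j _).symm) d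
    rwa [← ins_mul_ins, Matrix.mul_assoc (ins z) (ins g)] at this
  have hP' : Word (k + 3 + k) (1 + -(ins y * (diagonal d1 * sel g * K) * sel z)) := by
    have := hP (fun i => -d1 i)
    rwa [← Matrix.diagonal_neg, Matrix.neg_mul, Matrix.neg_mul, Matrix.mul_neg,
      Matrix.neg_mul] at this
  have hQ' : Word 3 (1 + -(ins z * (ins g * diagonal d2) * sel x)) := by
    have := hQ (fun i => -d2 i)
    rwa [← Matrix.diagonal_neg, Matrix.mul_neg, Matrix.mul_neg, Matrix.neg_mul] at this
  have := ((hQ'.mul (hP d1)).mul (hQ d2)).mul hP'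
  rw [ring_comm] at this
  · refine Word.le ?_ (le_of_eq (show 3 + (k + 3 + k) + 3 + (k + 3 + k) = _ by ring))
    convert this using 2
    simp only [Matrix.mul_assoc]
    rw [← Matrix.mul_assoc (sel z), zz, Matrix.one_mul]
  · simp only [Matrix.mul_assoc]
    rw [← Matrix.mul_assoc (sel z), zy]; simp
  · simp only [Matrix.mul_assoc]
    rw [← Matrix.mul_assoc (sel x), xz]; simp
  · simp only [Matrix.mul_assoc]
    rw [← Matrix.mul_assoc (sel x), xy]; simp

end Crest.Agent.R324
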